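import Crest.Agent.X212.Prf6.Tr

/-!
# Row 212, PERF, CUT (helper44): small charts, slides, embedded trees
-/

set_option autoImplicit false
set_option linter.unusedSectionVars false
noncomputable section
open Set Filter Topology Function Complex
open scoped ContDiff Manifold

namespace Crest.Agent.X212.Cut44

open Crest.Agent.X212.Prf6

/-- triangular maps of the plane -/
def tri (g h σ : ℝ → ℝ) (z : ℂ) : ℂ := ⟨g z.re, h z.re * σ z.im⟩

theorem pm_tri {g h σ : ℝ → ℝ} (hg : ContDiff ℝ ∞ g) (hh : ContDiff ℝ ∞ h) (hσ : ContDiff ℝ ∞ σ)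
    (z : ℂ) (g' : 0 < deriv g z.re) (h' : 0 < h z.re) (σ' : 0 < deriv σ z.im) :
    Pm oC oC (tri g h σ) z := by
  have e : tri g h σ = fun z : ℂ => ofRealCLM (g z.re) + I • ofRealCLM (h z.re * σ z.im) := by
    funext z; apply Complex.ext <;> simp [tri]
  have c1 : ContDiff ℝ ∞ fun z : ℂ => g z.re := hg.comp reCLM.contDiff
  have c2 : ContDiff ℝ ∞ fun z : ℂ => h z.re * σ z.im :=
    (hh.comp reCLM.contDiff).mul (hσ.comp imCLM.contDiff)
  refine pm_C isOpen_univ (mem_univ z) ?_ ?_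
  · rw [e]
    exact ((ofRealCLM.contDiff.comp c1).add
      ((ofRealCLM.contDiff.comp c2).const_smul I)).contDiffOn
  have d1 := (hg.differentiable (by simp) z.re).hasDerivAt.comp_hasFDerivAt z reCLM.hasFDerivAt
  have d2 := (hh.differentiable (by simp) z.re).hasDerivAt.comp_hasFDerivAt z reCLM.hasFDerivAt
  have d3 := (hσ.differentiable (by simp) z.im).hasDerivAt.comp_hasFDerivAt z imCLM.hasFDerivAt
  have d := (ofRealCLM.hasFDerivAt.comp z d1).add
    ((ofRealCLM.hasFDerivAt.comp z (d2.mul d3)).const_smul I)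
  rw [e]
  erw [d.fderiv]
  rw [det_C]
  simpa using mul_pos g' (mul_pos h' σ')

/-- the plane into the unit ball, axes to axes -/
def kap : ℂ → ℂ := tri (fun x => Real.arctan x / 4) (fun _ => 1 / 4) Real.arctan

theorem kap_re (z : ℂ) : (kap z).re = Real.arctan z.re / 4 := rfl
theorem kap_im (z : ℂ) : (kap z).im = 1 / 4 * Real.arctan z.im := rfl

theorem abs_arctan_lt (x : ℝ) : |Real.arctan x| < 2 := by
  have h1 := Real.arctan_lt_pi_div_two x
  have h2 := Real.neg_pi_div_two_lt_arctan x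
  have h3 := Real.pi_le_four
  rw [abs_lt]; constructor <;> linarith

theorem deriv_arctan_pos (x : ℝ) : 0 < deriv Real.arctan x := by
  rw [Real.deriv_arctan]; positivity

theorem norm_kap (z : ℂ) : ‖kap z‖ < 1 := by
  have h := norm_le_abs_re_add_abs_im (kap z)
  rw [kap_re, kap_im, abs_div, abs_mul] at h
  have h1 := abs_arctan_lt z.re
  have h2 := abs_arctan_lt z.im
  norm_num at h
  linarith

theorem pm_kap (z : ℂ) : Pm oC oC kap z :=
  pm_tri (Real.contDiff_arctan.div_const 4) contDiff_const Real.contDiff_arctan z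
    (by rw [deriv_div_const]; exact div_pos (deriv_arctan_pos _) (by norm_num)) (by norm_num)
    (deriv_arctan_pos _)

theorem kap_inj : Injective kap := fun z w h => by
  have h1 := congrArg re h
  have h2 := congrArg im h
  rw [kap_re, kap_re] at h1
  rw [kap_im, kap_im] at h2
  exact Complex.ext (Real.arctan_injective (by linarith)) (Real.arctan_injective (by linarith))

theorem kap_zero : kap 0 = 0 := by apply Complex.ext <;> simp [kap_re, kap_im]

/-- slide along the real axis -/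
theorem slide_C {a b : ℝ} {W : Set ℂ} (hW : IsOpen W) (h : ∀ s ∈ Icc a b, (s : ℂ) ∈ W) :
    ∃ κ L, Iso oC κ ∧ IsCompact L ∧ L ⊆ W ∧ (∀ t, ∀ z ∉ L, κ t z = z) ∧
      ∀ s : ℝ, s ≤ b → ∃ s' : ℝ, s' ≤ a ∧ κ 1 s = s' := by
  obtain ⟨L, hL, h1, h2⟩ := exists_compact_between
    (isCompact_Icc.image continuous_ofReal : IsCompact (ofReal '' Icc a b)) hW
    (by rintro _ ⟨s, hs, rfl⟩; exact h s hs)
  obtain ⟨χ, c0, c1, c2⟩ := exists_contMDiffMap_zero_one_of_isClosed (n := (⊤ : ℕ∞)) IC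
    isOpen_interior.isClosed_compl (isCompact_Icc.image continuous_ofReal).isClosed
    (disjoint_compl_left_iff_subset.2 h1)
  let T : ℝ := |b - a|
  let w : ℂ → ℂ := fun z => ((-T * χ z : ℝ) : ℂ)
  have hw : Flo26.SmV IC w := Flo26.smV_model.2 (ofRealCLM.contDiff.comp
    (contDiff_const.mul (contMDiff_iff_contDiff.1 χ.contMDiff)))
  have h0 : ∀ z ∉ L, w z = 0 := fun z hz => by
    have : χ z = 0 := c0 fun k => hz (interior_subset k)
    simp [w, this]
  have hc : Flo26.Cpl (I := IC) w := Flo26.complete_of_compact hw hL h0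
  have hd : ∀ z t, HasDerivAt (fun s => Flo26.fl (I := IC) w s z) (w (Flo26.fl (I := IC) w t z)) t :=
    fun z t => hasMFDerivAt_iff_hasFDerivAt.1 (Flo26.hasMFDerivAt_fl hw (hc (t, z)))
  refine ⟨flP hw hc, L, iso_flP hw hc, hL, h2, fun t z hz => (Flo26.fl_of_zero hw (h0 z hz) t).2,
    fun s hs => ?_⟩
  let γ : ℝ → ℂ := fun t => Flo26.fl (I := IC) w t s
  have γ0 : γ 0 = s := Flo26.fl_zero hw _
  have dre : ∀ t, HasDerivAt (fun t => (γ t).re) (-T * χ (γ t)) t := fun t =>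
    reCLM.hasFDerivAt.comp_hasDerivAt t (hd s t)
  have dim : ∀ t, HasDerivAt (fun t => (γ t).im) 0 t := fun t =>
    imCLM.hasFDerivAt.comp_hasDerivAt t (hd s t)
  have him : ∀ t, (γ t).im = 0 := fun t => by
    have := is_const_of_deriv_eq_zero (fun t => (dim t).differentiableAt) (fun t => (dim t).deriv) t 0
    simpa [γ0] using this
  have anti : Antitone fun t => (γ t).re :=
    antitone_of_deriv_nonpos (fun t => (dre t).differentiableAt) fun t => by
      rw [(dre t).deriv]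
      have := mul_nonneg (abs_nonneg (b - a)) (c2 (γ t)).1
      simp only [T]; linarith
  refine ⟨(γ 1).re, not_lt.1 fun hlt => ?_, Complex.ext (by simp [γ, flP_apply]) ?_⟩
  · obtain ⟨t, ht, e⟩ := exists_hasDerivAt_eq_slope (fun t => (γ t).re) _ one_pos
      (fun t _ => (dre t).continuousAt.continuousWithinAt) fun t _ => dre t
    have k1 := anti ht.1.le
    have k2 := anti ht.2.le
    simp only [γ0, ofReal_re] at k1 k2 e
    have k3 : χ (γ t) = 1 := c1 ⟨(γ t).re, ⟨by linarith, by linarith⟩,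
      Complex.ext (by simp) (by simp [him])⟩
    rw [k3] at e
    have := le_abs_self (b - a)
    simp only [T] at e
    linarith
  · simpa [γ, flP_apply] using him 1

section
variable {M : Type*} [TopologicalSpace M] [ChartedSpace ℂ M] [IsManifold IC ∞ M] [T2Space M]
  {o : Or M}

theorem st_kap {e : ℂ → M} (h : ∀ z, ‖z‖ < 1 → Pm oC o e z) (hi : InjOn e (Metric.ball 0 1)) :
    St o (e ∘ kap) :=
  ⟨fun z => (h _ (norm_kap z)).comp (pm_kap z), fun z w k =>
    kap_inj (hi (by simpa using norm_kap z) (by simpa using norm_kap w) k)⟩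

/-- small plane charts -/
theorem exists_st (o : Or M) (x : M) {U : Set M} (hU : U ∈ 𝓝 x) :
    ∃ P, St o P ∧ P 0 = x ∧ range P ⊆ U := by
  obtain ⟨e, he, rfl⟩ := exists_pm o x
  obtain ⟨Φ, hx, hΦ⟩ := he.1
  obtain ⟨ρ, hρ, h⟩ := Metric.eventually_nhds_iff_ball.1 (he.eventually.and
    ((he.1.contMDiffAt.continuousAt.eventually_mem hU).and (Φ.open_source.mem_nhds hx)))
  have hb : ∀ z : ℂ, ‖z‖ < 1 → 0 + ρ * z ∈ Metric.ball (0 : ℂ) ρ := fun z hz => by
    simp only [zero_add, Metric.mem_ball, dist_zero_right, norm_mul, norm_real,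
      Real.norm_of_nonneg hρ.le]
    nlinarith
  have h0 : (ρ : ℂ) ≠ 0 := ofReal_ne_zero.2 hρ.ne'
  refine ⟨(fun z => e (0 + ρ * z)) ∘ kap, st_kap (fun z hz => Pm.comp (f := fun w : ℂ => 0 + ρ * w) (g := e)
    (h _ (hb z hz)).1 (pm_affine h0 0 z)) fun z hz w hw k => ?_, by simp [kap_zero], ?_⟩
  · have k1 := (h _ (hb z (by simpa using hz))).2.2
    have k2 := (h _ (hb w (by simpa using hw))).2.2
    simp only [hΦ k1, hΦ k2] at k
    exact mul_left_cancel₀ h0 (add_left_cancel (Φ.injOn k1 k2 k))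
  · rintro _ ⟨z, rfl⟩
    exact (h _ (hb _ (norm_kap z))).2.1

theorem conn_diff (o : Or M) {S : Set M} (hS : IsOpen S) (hc : IsPreconnected S) (p : M) :
    IsPreconnected (S \ {p}) := by
  by_cases hp : p ∈ S
  swap
  · rwa [sdiff_singleton_eq_self hp]
  obtain ⟨P, hP, rfl, hr⟩ := exists_st o p (hS.mem_nhds hp)
  have hN : IsPreconnected (P '' {0}ᶜ) :=
    (isConnected_compl_singleton_of_one_lt_rank (by simp) (0 : ℂ)).isPreconnected.image P
      (cont_of_pm hP.1).continuousOn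
  have hNS : P '' {0}ᶜ ⊆ S \ {P 0} := by
    rintro _ ⟨z, hz, rfl⟩
    exact ⟨hr ⟨z, rfl⟩, fun k => hz (hP.2 k)⟩
  have key : ∀ u v : Set M, IsOpen u → IsOpen v → S \ {P 0} ⊆ u ∪ v →
      S \ {P 0} ∩ (u ∩ v) = ∅ → P '' {0}ᶜ ⊆ u → S \ {P 0} ⊆ u := by
    intro u v hu hv h1 h2 h3
    by_contra hn
    obtain ⟨y, hy, hyu⟩ := not_subset.1 hn
    obtain ⟨w, hw⟩ := hc (u ∪ range P) (v ∩ {P 0}ᶜ) (hu.union hP.isOpenEmbedding.isOpen_range)
      (hv.inter isOpen_compl_singleton) (fun z hz => by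
        by_cases e : z = P 0
        · exact Or.inl (Or.inr ⟨0, e.symm⟩)
        · exact (h1 ⟨hz, e⟩).imp Or.inl fun k => ⟨k, e⟩) ⟨P 0, hp, Or.inr ⟨0, rfl⟩⟩
      ⟨y, hy.1, (h1 hy).resolve_left hyu, hy.2⟩
    have : w ∈ S \ {P 0} ∩ (u ∩ v) := ⟨⟨hw.1, hw.2.2.2⟩, hw.2.1.elim id fun ⟨z, hz⟩ =>
      h3 ⟨z, fun k => hw.2.2.2 (by rw [← hz, k]; rfl), hz⟩, hw.2.2.1⟩
    rw [h2] at this
    exact this
  refine isPreconnected_iff_subset_of_disjoint.2 fun u v hu hv h1 h2 => ?_
  rcases isPreconnected_iff_subset_of_disjoint.1 hN u v hu hv (hNS.trans h1)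
    (eq_empty_of_subset_empty (h2 ▸ inter_subset_inter_left _ hNS)) with k | k
  · exact Or.inl (key u v hu hv h1 h2 k)
  · exact Or.inr (key v u hv hu (union_comm u v ▸ h1) (inter_comm u v ▸ h2) k)

/-- a connected surface minus a finite set is connected -/
theorem fin_compl (o : Or M) (hc : IsPreconnected (univ : Set M)) {F : Set M} (hF : F.Finite) :
    IsPreconnected Fᶜ := by
  induction F, hF using Set.Finite.induction_on with
  | empty => simpa using hc
  | insert _ hs ih =>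
    rw [insert_eq, union_comm, compl_union, ← sdiff_eq]
    exact conn_diff o hs.isClosed.isOpen_compl ih _

/-- slide along the axis of a chart -/
theorem slide {B : ℂ → M} (hB : St o B) {a b : ℝ} {U : Set M} (hU : IsOpen U)
    (h : ∀ s ∈ Icc a b, B s ∈ U) : ∃ φ, Iso o φ ∧ (∀ t, ∀ x ∉ U, φ t x = x) ∧
      (∀ x ∉ range B, φ 1 x = x) ∧ ∀ s : ℝ, s ≤ b → ∃ s' : ℝ, s' ≤ a ∧ φ 1 (B s) = B s' := by
  obtain ⟨κ, L, h1, h2, h3, h4, h5⟩ := slide_C (hU.preimage (cont_of_pm hB.1)) h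
  refine ⟨fun t => tr B (κ t), hB.tr_iso h1 h2 h4, fun t x hx => hB.fix (h4 t) ?_,
    fun x hx => (hB.wd _).out hx, fun s hs => ?_⟩
  · rintro ⟨z, hz, rfl⟩
    exact hx (h3 hz)
  · obtain ⟨s', k1, k2⟩ := h5 s hs
    exact ⟨s', k1, by rw [hB.apply, k2]⟩

/-- the axis of `B` is an edge from `q` to the leaf `p` -/
structure Lf (o : Or M) (B : ℂ → M) (p q : M) : Prop where
  st : St o B
  top : Tendsto (fun s : ℝ => B s) atTop (𝓝 p)
  bot : Tendsto (fun s : ℝ => B s) atBot (𝓝 q)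
  thr : ∃ P, St o P ∧ P 0 = p ∧ ∀ z, P z ∈ core B ∪ {p} ↔ z.im = 0 ∧ z.re ≤ 0

/-- embedded trees with root `x` -/
inductive Tr (o : Or M) (x : M) : Set M → Prop
  | pt : Tr o x {x}
  | leaf {T : Set M} {B : ℂ → M} {p q : M} : Tr o x T → Lf o B p q → q ∈ T →
      Disjoint (core B ∪ {p}) T → Tr o x (T ∪ (core B ∪ {p}))

theorem cpt_half {γ : ℝ → M} (hγ : Continuous γ) {q : M} (h : Tendsto γ atBot (𝓝 q)) (R : ℝ) :
    IsCompact (insert q (γ '' Iic R)) := by
  have h1 : Tendsto (fun s : ℝ => R - |s|) (cocompact ℝ) atBot :=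
    tendsto_atBot_add_const_left _ R (tendsto_neg_atTop_atBot.comp (tendsto_norm_cocompact_atTop (E := ℝ)))
  have h2 := (h.comp h1).isCompact_insert_range_of_cocompact (hγ.comp (by fun_prop))
  convert h2 using 2
  ext y
  constructor
  · rintro ⟨s, hs, rfl⟩
    exact ⟨R - s, by simp [abs_of_nonneg (sub_nonneg.2 (show s ≤ R from hs))]⟩
  · rintro ⟨s, rfl⟩
    exact ⟨R - |s|, by simp, rfl⟩

theorem cont_axis {B : ℂ → M} (hB : St o B) : Continuous fun s : ℝ => B s :=
  (cont_of_pm hB.1).comp continuous_ofReal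

theorem conn_curve {γ : ℝ → M} (hγ : Continuous γ) {Z : Set M} (hZ : IsPreconnected Z) {q : M}
    (hq : q ∈ Z) {l : Filter ℝ} [l.NeBot] (h : Tendsto γ l (𝓝 q)) :
    IsPreconnected (Z ∪ range γ) := by
  have h1 : IsPreconnected (insert q (range γ)) :=
    (isPreconnected_range hγ).subset_closure (subset_insert _ _)
      (insert_subset (mem_closure_of_tendsto h (Eventually.of_forall fun s => ⟨s, rfl⟩))
        subset_closure)
  have := hZ.union q hq (mem_insert _ _) h1
  rwa [union_insert, insert_eq_of_mem (mem_union_left _ hq)] at this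

theorem conn_step {B : ℂ → M} (hB : St o B) {Z : Set M} (hZ : IsPreconnected Z) {q : M}
    (hq : q ∈ Z) {l : Filter ℝ} [l.NeBot] (h : Tendsto (fun s : ℝ => B s) l (𝓝 q)) :
    IsPreconnected (Z ∪ core B) := conn_curve (cont_axis hB) hZ hq h

variable {x : M} {T : Set M}

theorem Tr.mem (h : Tr o x T) : x ∈ T := by
  induction h with
  | pt => rfl
  | leaf _ _ _ _ ih => exact Or.inl ih

theorem Tr.isCompact (h : Tr o x T) : IsCompact T := by
  induction h with
  | pt => exact isCompact_singleton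
  | @leaf T B p q _ hB hq _ ih =>
    have h1 := cpt_half (cont_axis hB.st) hB.bot 0
    have h2 := cpt_half ((cont_axis hB.st).comp continuous_neg)
      (hB.top.comp tendsto_neg_atBot_atTop) 0
    convert ih.union (h1.union h2) using 1
    ext y
    constructor
    · rintro (k | ⟨s, rfl⟩ | rfl)
      · exact Or.inl k
      · rcases le_total s 0 with k | k
        · exact Or.inr (Or.inl (Or.inr ⟨s, k, rfl⟩))
        · exact Or.inr (Or.inr (Or.inr ⟨-s, by simpa using k, by simp⟩))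
      · exact Or.inr (Or.inr (Or.inl rfl))
    · rintro (k | (rfl | ⟨s, -, rfl⟩) | rfl | ⟨s, -, rfl⟩)
      · exact Or.inl k
      · exact Or.inl hq
      · exact Or.inr (Or.inl ⟨s, rfl⟩)
      · exact Or.inr (Or.inr rfl)
      · exact Or.inr (Or.inl ⟨-s, rfl⟩)

theorem Tr.conn (h : Tr o x T) : IsPreconnected T := by
  induction h with
  | pt => exact isPreconnected_singleton
  | @leaf T B p q _ hB hq _ ih =>
    rw [← union_assoc]
    exact (conn_step hB.st ih hq hB.bot).subset_closure subset_union_left (union_subset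
      subset_closure (singleton_subset_iff.2 (mem_closure_of_tendsto hB.top
        (Eventually.of_forall fun s => Or.inr ⟨s, rfl⟩))))

/-- a tree is pulled into any neighbourhood of its root -/
theorem Tr.shrink (h : Tr o x T) : ∀ U O : Set M, IsOpen U → T ⊆ U → O ∈ 𝓝 x →
    ∃ φ, Iso o φ ∧ (∀ t, ∀ y ∉ U, φ t y = y) ∧ (∀ t, φ t x = x) ∧ φ 1 '' T ⊆ O := by
  induction h with
  | pt => exact fun U O _ _ hO =>
      ⟨fun _ => 1, iso_one, fun _ _ _ => rfl, fun _ => rfl, by simpa using mem_of_mem_nhds hO⟩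
  | @leaf T B p q hT hB hq hd ih =>
    intro U O hU hs hO
    obtain ⟨φ, f1, f2, f3, f4⟩ := ih U (interior O) hU (subset_union_left.trans hs)
      (interior_mem_nhds.2 hO)
    obtain ⟨P, hP, p0, hp⟩ := hB.thr
    have hU' : IsOpen (U \ T) := hU.sdiff hT.isCompact.isClosed
    have hs' : core B ∪ {p} ⊆ U \ T := fun y hy =>
      ⟨hs (Or.inr hy), disjoint_left.1 hd hy⟩
    obtain ⟨a, ha⟩ := eventually_atBot.1 (hB.bot.eventually
      ((isOpen_interior.preimage (G_cont (f1.mem 1))).mem_nhds (f4 ⟨q, hq, rfl⟩)))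
    obtain ⟨R, hR⟩ := eventually_atTop.1 (hB.top.eventually
      ((hP.isOpenEmbedding.isOpenMap _ (Metric.isOpen_ball (x := 0) (ε := 1))).mem_nhds
        ⟨0, by simp, p0⟩))
    obtain ⟨ψ, g1, g2, g3, g4⟩ := slide hP (a := -1) (b := 0) hU' fun s hs =>
      hs' ((hp s).2 ⟨by simp, by simpa using hs.2⟩)
    obtain ⟨χ, k1, k2, -, k4⟩ := slide hB.st (a := a) (b := R) hU' fun s _ => hs' (Or.inl ⟨s, rfl⟩)
    have fixT : ∀ t, ∀ y ∈ T, (φ t * (χ t * ψ t)) y = φ t y := fun t y hy => by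
      simp [g2 t y fun k => k.2 hy, k2 t y fun k => k.2 hy]
    refine ⟨fun t => φ t * (χ t * ψ t), f1.mul (k1.mul g1), fun t y hy => ?_,
      fun t => by rw [fixT t x hT.mem, f3], ?_⟩
    · simp [g2 t y fun k => hy k.1, k2 t y fun k => hy k.1, f2 t y hy]
    rintro _ ⟨y, hy | hy, rfl⟩
    · exact fixT 1 y hy ▸ interior_subset (f4 ⟨y, hy, rfl⟩)
    have step : ∃ s : ℝ, s ≤ R ∧ ψ 1 y = B s := by
      by_cases hr : y ∈ range P
      · obtain ⟨z, rfl⟩ := hr
        obtain ⟨z1, z2⟩ := (hp z).1 hy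
        obtain ⟨s', j1, j2⟩ := g4 z.re z2
        rw [show ((z.re : ℝ) : ℂ) = z from Complex.ext (by simp) (by simp [z1])] at j2
        rcases (hp s').2 ⟨by simp, by simp; linarith⟩ with ⟨s, e⟩ | e
        · refine ⟨s, not_lt.1 fun k => ?_, j2.trans e.symm⟩
          obtain ⟨w, hw, e'⟩ := hR s k.le
          rw [hP.2 (e'.trans e)] at hw
          simp only [Metric.mem_ball, dist_zero_right, norm_real, Real.norm_eq_abs, abs_lt] at hw
          linarith
        · have := congrArg re (hP.2 (e.trans p0.symm))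
          simp at this
          linarith
      · rcases hy with ⟨s, rfl⟩ | rfl
        · exact ⟨s, not_lt.1 fun k => hr (image_subset_range _ _ (hR s k.le)), g3 _ hr⟩
        · exact absurd ⟨0, p0⟩ hr
    obtain ⟨s, j1, j2⟩ := step
    obtain ⟨s', j3, j4⟩ := k4 s j1
    simp only [Equiv.Perm.mul_apply, j2, j4]
    exact interior_subset (ha s' j3)

/-- a tree does not separate -/
theorem Tr.compl (h : Tr o x T) (hc : IsPreconnected (univ : Set M)) : IsPreconnected Tᶜ := by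
  have := ChartedSpace.locallyPathConnectedSpace ℂ M
  refine isPreconnected_of_forall_pair fun y hy y' hy' => ?_
  have ne : ∀ y ∉ T, y ∈ ({x}ᶜ : Set M) := fun y hy k => hy (k ▸ h.mem)
  obtain ⟨γ, hγ⟩ := (isOpen_compl_singleton.isConnected_iff_isPathConnected.1
    ⟨⟨y, ne y hy⟩, fin_compl o hc (finite_singleton x)⟩).joinedIn y (ne y hy) y' (ne y' hy')
  obtain ⟨φ, f1, f2, -, f4⟩ := h.shrink {y, y'}ᶜ (range γ)ᶜ
    (toFinite _).isClosed.isOpen_compl (fun z hz k => by rcases k with rfl | rfl <;> contradiction)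
    ((isCompact_range γ.continuous).isClosed.isOpen_compl.mem_nhds fun ⟨t, ht⟩ => hγ t ht)
  refine ⟨⇑((φ 1)⁻¹ : Equiv.Perm M) '' range γ, ?_, ⟨y, ⟨0, γ.source⟩, ?_⟩, ⟨y', ⟨1, γ.target⟩, ?_⟩,
    (isPreconnected_range γ.continuous).image _ (G_cont_inv (f1.mem 1)).continuousOn⟩
  · rintro _ ⟨z, hz, rfl⟩ k
    exact f4 ⟨_, k, by simp⟩ hz
  · rw [Equiv.Perm.inv_eq_iff_eq, f2 1 y (by simp)]
  · rw [Equiv.Perm.inv_eq_iff_eq, f2 1 y' (by simp)]

end

end Crest.Agent.X212.Cut44
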