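import Crest.Agent.X212.Cut44.Slide
import Crest.Agent.X212.Mor94.Dyn

/-!
# Row 212, PERF, CUT (helper44): gradient-like flows, time reversal, limits
-/

set_option autoImplicit false
set_option linter.unusedSectionVars false
noncomputable section
open Set Filter Topology Function Complex
open scoped ContDiff Manifold

namespace Crest.Agent.X212.Cut44

open Crest.Agent.X212.Prf6

/-- the linear flow -/
def ln (a b t : ℝ) (z : ℂ) : ℂ := ⟨Real.exp (a * t) * z.re, Real.exp (b * t) * z.im⟩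

theorem ln_same (a t : ℝ) (z : ℂ) : ln a a t z = Real.exp (a * t) * z := by
  apply Complex.ext <;> simp [ln, -ofReal_exp]

theorem nlt {z : ℂ} : ‖z‖ < 1 ↔ z.re ^ 2 + z.im ^ 2 < 1 := by
  simpa using Mor94.norm_lt_iff (z := z) one_pos

theorem ln_conv {a b s t : ℝ} {z : ℂ} (h0 : ‖z‖ < 1) (h1 : ‖ln a b t z‖ < 1) (hs : s ∈ uIcc 0 t) :
    ‖ln a b s z‖ < 1 := by
  rw [← segment_eq_uIcc] at hs
  obtain ⟨u, θ, hu, hθ, e, rfl⟩ := hs
  have k : ∀ c : ℝ, Real.exp (c * (u • 0 + θ • t)) ^ 2 ≤ u + θ * Real.exp (c * t) ^ 2 := fun c => by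
    have := convexOn_exp.2 (mem_univ 0) (mem_univ (2 * (c * t))) hu hθ e
    simp only [smul_eq_mul, mul_zero, zero_add, Real.exp_zero, mul_one] at this ⊢
    rw [← Real.exp_nat_mul, ← Real.exp_nat_mul, Nat.cast_ofNat,
      show 2 * (c * (θ * t)) = θ * (2 * (c * t)) by ring]
    exact this
  rw [nlt] at h0 h1 ⊢
  simp only [ln, mul_pow] at h1 ⊢
  have k1 := mul_le_mul_of_nonneg_right (k a) (sq_nonneg z.re)
  have k2 := mul_le_mul_of_nonneg_right (k b) (sq_nonneg z.im)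
  have k3 := mul_le_mul_of_nonneg_left (le_max_left (z.re ^ 2 + z.im ^ 2)
    (Real.exp (a * t) ^ 2 * z.re ^ 2 + Real.exp (b * t) ^ 2 * z.im ^ 2)) hu
  have k4 := mul_le_mul_of_nonneg_left (le_max_right (z.re ^ 2 + z.im ^ 2)
    (Real.exp (a * t) ^ 2 * z.re ^ 2 + Real.exp (b * t) ^ 2 * z.im ^ 2)) hθ
  have k5 := max_lt h0 h1
  obtain rfl : u = 1 - θ := by linarith
  nlinarith

variable {M : Type*} [TopologicalSpace M] [ChartedSpace ℂ M] [IsManifold IC ∞ M] [T2Space M]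
  [CompactSpace M] {o : Or M}

/-- a gradient-like flow, linear in charts at the rest points, without saddle connections -/
structure Dy (o : Or M) where
  Φ : ℝ → Equiv.Perm M
  f : M → ℝ
  C : Finset M
  Q : M → ℂ → M
  a : M → ℝ
  b : M → ℝ
  c : M → ℝ
  iso : Iso o Φ
  add : ∀ s t x, Φ (s + t) x = Φ s (Φ t x)
  cont : Continuous f
  cpos : ∀ p ∈ C, 0 < c p
  strict : ∀ x ∉ C, StrictMono fun t => f (Φ t x)
  fix : ∀ p ∈ C, ∀ t, Φ t p = p
  ab : ∀ p ∈ C, (a p = 1 ∧ b p = 1) ∨ (a p = -1 ∧ b p = -1) ∨ (a p = 1 ∧ b p = -1)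
  pos : ∀ p ∈ C, ∀ z : ℂ, ‖z‖ < 1 → Pm oC o (Q p) z
  inj : ∀ p ∈ C, InjOn (Q p) (Metric.ball 0 1)
  ctr : ∀ p ∈ C, Q p 0 = p
  fQ : ∀ p ∈ C, ∀ z : ℂ, ‖z‖ < 1 → f (Q p z) = f p + c p * (a p * z.re ^ 2 + b p * z.im ^ 2)
  lin : ∀ p ∈ C, ∀ t (z : ℂ), ‖z‖ < 1 → ‖ln (a p) (b p) t z‖ < 1 →
    Φ t (Q p z) = Q p (ln (a p) (b p) t z)
  noc : ∀ p ∈ C, ∀ q ∈ C, a p ≠ b p → a q ≠ b q → ∀ x ∉ C,
    ¬ (Tendsto (fun t => Φ t x) atBot (𝓝 p) ∧ Tendsto (fun t => Φ t x) atTop (𝓝 q))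

/-- the flow of a Morse datum -/
def ofMo (m : Mo o) (h : m.Noc) : Dy o where
  Φ := flP m.smv (Mor94.cpl m)
  f := m.f
  C := m.C
  Q := m.Q
  a := m.a
  b := m.b
  c := m.c
  iso := iso_flP _ _
  add := Mor94.fl_add' m
  cont := m.smf.continuous
  cpos := m.cpos
  strict := fun _ hx => Mor94.f_strict m hx
  fix := fun _ hp => Mor94.fl_crit m hp
  ab := m.ab
  pos := m.pos
  inj := m.inj
  ctr := m.ctr
  fQ := m.fQ
  lin := fun p hp t z h0 h1 => by
    have k := (Mor94.ch m hp).fl_curve m.smv (Mor94.vQ m hp)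
      (g := fun s => ln (m.a p) (m.b p) s z) (T := t) (fun s => ?_) fun s hs =>
        mem_ball_zero_iff.2 (ln_conv h0 h1 hs)
    · simpa [ln, flP_apply] using k
    · have e : ∀ c x : ℝ, HasDerivAt (fun s => Real.exp (c * s) * x) (c * (Real.exp (c * s) * x)) s :=
        fun c x => ((((hasDerivAt_id s).const_mul c).exp).mul_const x).congr_deriv (by simp; ring)
      exact Mor94.hasDerivAt_mk (e _ _) (e _ _)
  noc := h

namespace Dy
variable (d : Dy o) {p q s x y : M}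

/-- time reversal -/
def rev : Dy o where
  Φ := fun t => d.Φ (-t)
  f := fun x => -d.f x
  C := d.C
  Q := fun p z => d.Q p (I * z)
  a := fun p => -d.b p
  b := fun p => -d.a p
  c := d.c
  iso := d.iso.reparam contDiff_neg neg_zero
  add := fun s t x => by rw [neg_add, d.add]
  cont := d.cont.neg
  cpos := d.cpos
  strict := fun x hx _ _ h => neg_lt_neg (d.strict x hx (neg_lt_neg h))
  fix := fun p hp t => d.fix p hp (-t)
  ab := fun p hp => by rcases d.ab p hp with h | h | h <;> simp [h.1, h.2]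
  pos := fun p hp z hz => Pm.comp (g := d.Q p) (f := fun w => I * w)
    (d.pos p hp _ (by simpa using hz)) (by simpa using pm_affine I_ne_zero 0 z)
  inj := fun p hp z hz w hw h => mul_left_cancel₀ I_ne_zero
    (d.inj p hp (by simpa using hz) (by simpa using hw) h)
  ctr := fun p hp => by simp [d.ctr p hp]
  fQ := fun p hp z hz => by rw [d.fQ p hp _ (by simpa using hz)]; simp; ring
  lin := fun p hp t z h0 h1 => by
    have e : I * ln (-d.b p) (-d.a p) t z = ln (d.a p) (d.b p) (-t) (I * z) := by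
      apply Complex.ext <;> simp [ln]
    rw [e]
    exact d.lin p hp _ _ (by simpa using h0) (by rw [← e]; simpa using h1)
  noc := fun p hp q hq h1 h2 x hx h => d.noc q hq p hp (fun k => h2 (by rw [k]))
    (fun k => h1 (by rw [k])) x hx
    ⟨by simpa [comp_def] using h.2.comp tendsto_neg_atBot_atTop,
      by simpa [comp_def] using h.1.comp tendsto_neg_atTop_atBot⟩

theorem zero (x : M) : d.Φ 0 x = x := by rw [d.iso.zero]; rfl

theorem back (t : ℝ) (x : M) : d.Φ (-t) (d.Φ t x) = x := by rw [← d.add, neg_add_cancel, d.zero]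

theorem mono (x : M) : Monotone fun t => d.f (d.Φ t x) := by
  by_cases hx : x ∈ d.C
  · simp only [d.fix x hx]; exact monotone_const
  · exact (d.strict x hx).monotone

theorem orb (x : M) : Continuous fun t => d.Φ t x :=
  d.iso.cont.comp (continuous_id.prodMk continuous_const)

theorem ct (t : ℝ) : Continuous (d.Φ t) := G_cont (d.iso.mem t)

theorem ch (hp : p ∈ d.C) : Mor94.Ch (d.Q p) (Metric.ball 0 1) :=
  ⟨Metric.isOpen_ball, fun z hz => (d.pos p hp z (mem_ball_zero_iff.1 hz)).1, d.inj p hp⟩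

theorem ball_nhds (hp : p ∈ d.C) {r : ℝ} (hr : 0 < r) : d.Q p '' Metric.ball 0 r ∈ 𝓝 p := by
  have := (d.ch hp).image_nhds (Metric.mem_ball_self one_pos) (Metric.ball_mem_nhds 0 hr)
  rwa [d.ctr p hp] at this

theorem exists_lim (x : M) : ∃ p ∈ d.C, Tendsto (fun t => d.Φ t x) atTop (𝓝 p) := by
  have cl : ∀ y, MapClusterPt y atTop (fun t => d.Φ t x) → y ∈ d.C := fun y hy => by
    by_contra hn
    have hL := tendsto_atTop_ciSup (d.mono x) ((isCompact_range d.cont).bddAbove.mono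
      (by rintro _ ⟨t, rfl⟩; exact ⟨_, rfl⟩))
    have key : ∀ s, d.f (d.Φ s y) = _ := fun s => eq_of_nhds_neBot
      ((hy.continuousAt_comp (f := fun z => d.f (d.Φ s z))
        (d.cont.comp (d.ct s)).continuousAt).clusterPt.mono
        ((hL.comp (tendsto_atTop_add_const_left _ s tendsto_id)).congr fun t => by simp [d.add]))
    exact (d.strict y hn one_pos).ne (by simp only [key])
  obtain ⟨U, hU, hd⟩ := d.C.finite_toSet.t2_separation
  obtain ⟨T, hT⟩ := eventually_atTop.1 ((isCompact_univ.tendsto_nhdsSet_of_mapClusterPt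
    (Eventually.of_forall fun _ => mem_univ _) fun y _ h => cl y h).eventually
    ((isOpen_biUnion (s := (d.C : Set M)) fun p _ => (hU p).2).mem_nhdsSet.2
      fun p hp => mem_biUnion hp (hU p).1))
  obtain ⟨p, hp, hpT⟩ := mem_iUnion₂.1 (hT T le_rfl)
  have stay : (fun t => d.Φ t x) '' Ici T ⊆ U p := by
    refine (isPreconnected_Ici.image _ (d.orb x).continuousOn).subset_left_of_subset_union
      (hU p).2 (isOpen_biUnion (s := (d.C : Set M) \ {p}) fun q _ => (hU q).2)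
      (disjoint_iUnion₂_right.2 fun q hq => hd hp hq.1 fun k => hq.2 k.symm) ?_
      ⟨_, ⟨T, self_mem_Ici, rfl⟩, hpT⟩
    rintro _ ⟨t, ht, rfl⟩
    obtain ⟨q, hq, k⟩ := mem_iUnion₂.1 (hT t ht)
    by_cases e : q = p
    · exact Or.inl (e ▸ k)
    · exact Or.inr (mem_biUnion (show q ∈ (d.C : Set M) \ {p} from ⟨hq, e⟩) k)
  refine ⟨p, hp, isCompact_univ.tendsto_nhds_of_unique_mapClusterPt
    (Eventually.of_forall fun _ => mem_univ _) fun y _ hy => by_contra fun hne => ?_⟩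
  obtain ⟨t, h1, h2⟩ := ((hy.frequently ((hU y).2.mem_nhds (hU y).1)).and_eventually
    (eventually_ge_atTop T)).exists
  exact disjoint_left.1 (hd (cl y hy) hp hne) h1 (stay ⟨t, h2, rfl⟩)

/-- the forward limit -/
def om (x : M) : M := (d.exists_lim x).choose

theorem om_mem (x : M) : d.om x ∈ d.C := (d.exists_lim x).choose_spec.1

theorem om_lim (x : M) : Tendsto (fun t => d.Φ t x) atTop (𝓝 (d.om x)) :=
  (d.exists_lim x).choose_spec.2

theorem om_eq (h : Tendsto (fun t => d.Φ t x) atTop (𝓝 p)) : d.om x = p :=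
  tendsto_nhds_unique (d.om_lim x) h

theorem om_flow (t : ℝ) (x : M) : d.om (d.Φ t x) = d.om x :=
  d.om_eq (((d.om_lim x).comp (tendsto_atTop_add_const_right _ t tendsto_id)).congr
    fun s => d.add s t x)

theorem al_flow (t : ℝ) (x : M) : d.rev.om (d.Φ t x) = d.rev.om x := by
  simpa [rev] using d.rev.om_flow (-t) x

theorem om_crit (hp : p ∈ d.C) : d.om p = p :=
  d.om_eq (by simp only [d.fix p hp]; exact tendsto_const_nhds)

theorem rr_om : d.rev.rev.om = d.om :=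
  funext fun x => d.rev.rev.om_eq (by simpa [rev] using d.om_lim x)

/-- sinks -/
def Mx (p : M) : Prop := p ∈ d.C ∧ d.a p = -1

/-- saddles -/
def Sd (p : M) : Prop := p ∈ d.C ∧ d.a p ≠ d.b p

theorem rr_mx : d.rev.rev.Mx = d.Mx := funext fun p => by simp [Mx, rev]

theorem rev_sd : d.rev.Sd = d.Sd := funext fun p => by simp [Sd, rev, eq_comm]

variable {d}

theorem Mx.b (h : d.Mx p) : d.b p = -1 := by
  rcases d.ab p h.1 with k | k | k
  · linarith [k.1, h.2]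
  · exact k.2
  · exact k.2

theorem Sd.ab (h : d.Sd p) : d.a p = 1 ∧ d.b p = -1 := by
  rcases d.ab p h.1 with k | k | k
  · exact (h.2 (k.1.trans k.2.symm)).elim
  · exact (h.2 (k.1.trans k.2.symm)).elim
  · exact k

theorem Mx.nsd (h : d.Mx p) : ¬ d.Sd p := fun k => k.2 (h.2.trans h.b.symm)

theorem Mx.nmn (h : d.Mx p) : ¬ d.rev.Mx p := fun k => by
  have : -d.b p = -1 := k.2
  linarith [h.b]

theorem tri (hp : p ∈ d.C) : d.Mx p ∨ d.rev.Mx p ∨ d.Sd p := by
  rcases d.ab p hp with k | k | k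
  · exact Or.inr (Or.inl ⟨hp, by simp [rev, k.2]⟩)
  · exact Or.inl ⟨hp, k.1⟩
  · exact Or.inr (Or.inr ⟨hp, by rw [k.1, k.2]; norm_num⟩)

theorem Mx.lin (h : d.Mx p) {z : ℂ} (hz : ‖z‖ < 1) {t : ℝ} (h' : Real.exp (-t) * ‖z‖ < 1) :
    d.Φ t (d.Q p z) = d.Q p (Real.exp (-t) * z) := by
  have := d.lin p h.1 t z hz
  rw [h.2, h.b, ln_same, neg_one_mul] at this
  exact this (by rwa [norm_mul, norm_real, Real.norm_of_nonneg (Real.exp_pos _).le])

theorem exp_norm {t : ℝ} (ht : 0 ≤ t) (z : ℂ) : Real.exp (-t) * ‖z‖ ≤ ‖z‖ :=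
  mul_le_of_le_one_left (norm_nonneg z) (Real.exp_le_one_iff.2 (neg_nonpos.2 ht))

theorem Mx.om (h : d.Mx p) {z : ℂ} (hz : ‖z‖ < 1) : d.om (d.Q p z) = p := by
  refine d.om_eq (Tendsto.congr' (f₁ := fun t => d.Q p (Real.exp (-t) * z)) ?_ ?_)
  · filter_upwards [eventually_ge_atTop 0] with t ht using (h.lin hz ((exp_norm ht z).trans_lt hz)).symm
  · have := (d.pos p h.1 0 (by simp)).1.contMDiffAt.continuousAt.tendsto
    rw [d.ctr p h.1] at this
    refine this.comp ?_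
    simpa using ((continuous_ofReal.tendsto 0).comp Real.tendsto_exp_neg_atTop_nhds_zero).mul_const z

/-- forward invariant sets -/
def Inv (d : Dy o) (N : Set M) : Prop := ∀ t, 0 ≤ t → ∀ y ∈ N, d.Φ t y ∈ N

theorem Mx.stab (h : d.Mx p) {O : Set M} (hO : O ∈ 𝓝 p) :
    ∃ N, IsOpen N ∧ d.Inv N ∧ N ⊆ O ∧ p ∈ N := by
  obtain ⟨r, hr, k⟩ := Metric.mem_nhds_iff.1 (inter_mem (Metric.ball_mem_nhds (0 : ℂ) one_pos)
    ((d.pos p h.1 0 (by simp)).1.contMDiffAt.continuousAt.preimage_mem_nhds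
      ((d.ctr p h.1).symm ▸ hO)))
  refine ⟨d.Q p '' Metric.ball 0 r, (d.ch h.1).isOpen_image Metric.isOpen_ball fun z hz => (k hz).1,
    ?_, ?_, 0, Metric.mem_ball_self hr, d.ctr p h.1⟩
  · rintro t ht _ ⟨z, hz, rfl⟩
    have h1 := mem_ball_zero_iff.1 (k hz).1
    refine ⟨_, ?_, (h.lin h1 ((exp_norm ht z).trans_lt h1)).symm⟩
    rw [mem_ball_zero_iff, norm_mul, norm_real, Real.norm_of_nonneg (Real.exp_pos _).le]
    exact (exp_norm ht z).trans_lt (mem_ball_zero_iff.1 hz)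
  · rintro _ ⟨z, hz, rfl⟩
    exact (k hz).2

theorem unif {N K : Set M} (hN : IsOpen N) (hi : d.Inv N) (hK : IsCompact K)
    (h : ∀ y ∈ K, d.om y ∈ N) : ∃ T, ∀ t, T ≤ t → ∀ y ∈ K, d.Φ t y ∈ N := by
  have mo : Monotone fun t => d.Φ t ⁻¹' N := fun s t k y hy => by
    have := hi (t - s) (sub_nonneg.2 k) _ hy
    rwa [← d.add, sub_add_cancel] at this
  obtain ⟨T, hT⟩ := hK.elim_directed_cover (fun t => d.Φ t ⁻¹' N) (fun t => hN.preimage (d.ct t))
    (fun y hy => mem_iUnion.2 ((d.om_lim y).eventually (hN.mem_nhds (h y hy))).exists)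
    mo.directed_le
  exact ⟨T, fun t ht y hy => mo ht (hT hy)⟩

theorem open_of {A : M → Prop} (h : ∀ p, A p → ∀ᶠ y in 𝓝 p, p ∈ d.C → A (d.om y)) :
    IsOpen {y | A (d.om y)} := by
  refine isOpen_iff_mem_nhds.2 fun y hy => ?_
  obtain ⟨t, ht⟩ := ((d.om_lim y).eventually (h _ hy).eventually_nhds).exists
  filter_upwards [(d.ct t).continuousAt.eventually ht] with z hz
  simpa [d.om_flow] using hz (d.om_mem y)

theorem Mx.ev (h : d.Mx p) : ∀ᶠ y in 𝓝 p, d.om y = p := by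
  filter_upwards [d.ball_nhds h.1 one_pos]
  rintro _ ⟨z, hz, rfl⟩
  exact h.om (mem_ball_zero_iff.1 hz)

theorem Mx.basin (h : d.Mx p) : IsOpen {y | d.om y = p} :=
  open_of (A := (· = p)) fun _ k => by subst k; exact h.ev.mono fun _ k _ => k

theorem eq_of_mn (h : d.rev.Mx (d.om y)) : d.om y = y := by
  obtain ⟨T, z, hz, e⟩ := ((d.om_lim y).eventually (d.ball_nhds h.1 one_pos)).exists
  have h1 : d.f (d.Φ T y) ≤ d.f (d.om y) :=
    (d.mono y).ge_of_tendsto ((d.cont.tendsto _).comp (d.om_lim y)) T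
  have h2 : -d.b (d.om y) = -1 := h.2
  have h3 : -d.a (d.om y) = -1 := h.b
  rw [← e, d.fQ _ h.1 z (mem_ball_zero_iff.1 hz), neg_injective h2, neg_injective h3] at h1
  have h4 := d.cpos _ h.1
  have h5 : z.re ^ 2 + z.im ^ 2 ≤ 0 := by
    by_contra k
    nlinarith [mul_pos h4 (not_le.1 k)]
  have h6 : z = 0 := Complex.ext
    ((pow_eq_zero_iff two_ne_zero).1 (by nlinarith [sq_nonneg z.re, sq_nonneg z.im]))
    ((pow_eq_zero_iff two_ne_zero).1 (by nlinarith [sq_nonneg z.re, sq_nonneg z.im]))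
  rw [h6, d.ctr _ h.1] at e
  rw [← d.back T y, ← e, d.om_flow, d.fix _ h.1, d.om_crit h.1]

theorem eq_of_mx (h : d.Mx (d.rev.om y)) : d.rev.om y = y := eq_of_mn (d.rr_mx ▸ h)

theorem exists_mx (d : Dy o) [Nonempty M] : ∃ p, d.Mx p := by
  obtain ⟨p, -, hp⟩ := isCompact_univ.exists_isMaxOn univ_nonempty d.cont.continuousOn
  have h : p ∈ d.C := by_contra fun k => by
    have := d.strict p k one_pos
    simp only [d.zero] at this
    exact not_le.2 this (hp (mem_univ _))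
  refine ⟨p, h, by_contra fun k => ?_⟩
  have h1 : d.a p = 1 := by rcases d.ab p h with j | j | j <;> first | exact j.1 | exact (k j.1).elim
  have h2 : d.f (d.Q p (1 / 2 : ℝ)) ≤ d.f p := hp (mem_univ _)
  rw [d.fQ p h _ (by rw [norm_real]; norm_num), h1] at h2
  simp only [ofReal_re, ofReal_im] at h2
  nlinarith [d.cpos p h]

/-- the unstable separatrices end at sinks -/
theorem Sd.end_mx (h : d.Sd s) (h1 : d.rev.om y = s) (h2 : y ≠ s) : d.Mx (d.om y) := by
  have hy : y ∉ d.C := fun k => h2 ((d.rev.om_crit k).symm.trans h1)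
  rcases tri (d.om_mem y) with k | k | k
  · exact k
  · exact (hy (eq_of_mn k ▸ d.om_mem y)).elim
  · refine (d.noc s h.1 _ k.1 h.2 k.2 y hy ⟨?_, d.om_lim y⟩).elim
    have := (d.rev.om_lim y).comp tendsto_neg_atBot_atTop
    rw [h1] at this
    simpa [rev, comp_def] using this

theorem Sd.lin (h : d.Sd s) (t : ℝ) {z : ℂ} (h0 : ‖z‖ < 1) (h1 : ‖ln 1 (-1) t z‖ < 1) :
    d.Φ t (d.Q s z) = d.Q s (ln 1 (-1) t z) := by
  have := d.lin s h.1 t z h0
  rw [h.ab.1, h.ab.2] at this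
  exact this h1

/-- the stable set of a saddle -/
theorem Sd.stable (h : d.Sd s) (h1 : d.om y = s) :
    y = s ∨ ∃ σ : ℝ, (σ = 1 ∨ σ = -1) ∧ ∃ t, d.Φ t (d.Q s ⟨0, σ / 2⟩) = y := by
  have hc : d.Q s ⟨0, 0⟩ = s := d.ctr s h.1
  have := Mor94.trap (F := fun t x => d.Φ t x) (Q := fun u w => d.Q s ⟨u, w⟩) (x := y) d.add d.zero
    (fun u w T k => ?_) (fun u w u' w' k k' e => congrArg re (d.inj s h.1
      (mem_ball_zero_iff.2 (nlt.2 k)) (mem_ball_zero_iff.2 (nlt.2 k')) e))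
    ?_
    (by rw [hc, ← h1]; exact d.om_lim y)
  · rwa [hc] at this
  · rw [h.lin T (nlt.2 (by simpa using k 0 left_mem_uIcc))
      (nlt.2 (by simpa [ln, mul_comm] using k T right_mem_uIcc))]
    simp [ln, mul_comm]
  · rw [hc]
    refine mem_of_superset (d.ball_nhds h.1 one_half_pos) ?_
    rintro _ ⟨z, hz, rfl⟩
    exact ⟨z.re, z.im, (Mor94.norm_lt_iff (by norm_num)).1 (mem_ball_zero_iff.1 hz), rfl⟩

theorem Sd.om_axis (h : d.Sd s) {w : ℝ} (hw : w ^ 2 < 1) : d.om (d.Q s ⟨0, w⟩) = s := by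
  refine d.om_eq (Tendsto.congr' (f₁ := fun t => d.Q s (Real.exp (-t) * ⟨0, w⟩)) ?_ ?_)
  · filter_upwards [eventually_ge_atTop 0] with t ht
    have h0 : ‖(⟨0, w⟩ : ℂ)‖ < 1 := nlt.2 (by simpa using hw)
    have e : ln 1 (-1) t ⟨0, w⟩ = Real.exp (-t) * ⟨0, w⟩ := by
      apply Complex.ext <;> simp [ln, -ofReal_exp]
    rw [h.lin t h0, e]
    rw [e, norm_mul, norm_real, Real.norm_of_nonneg (Real.exp_pos _).le]
    exact (exp_norm ht _).trans_lt h0
  · have := (d.pos s h.1 0 (by simp)).1.contMDiffAt.continuousAt.tendsto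
    rw [d.ctr s h.1] at this
    refine this.comp ?_
    simpa using ((continuous_ofReal.tendsto 0).comp Real.tendsto_exp_neg_atTop_nhds_zero).mul_const
      (⟨0, w⟩ : ℂ)

end Dy

end Crest.Agent.X212.Cut44
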