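import Crest.Agent.X212.Cut44.Slide

/-!
# Row 212, PERF, CUT (helper44): the height function of a proper arc
-/

set_option autoImplicit false
set_option linter.unusedSectionVars false
noncomputable section
open Set Filter Topology Function Complex
open scoped ContDiff Manifold

namespace Crest.Agent.X212.Cut44

open Crest.Agent.X212.Prf6

variable {M : Type*} [TopologicalSpace M] [ChartedSpace ℂ M] [IsManifold IC ∞ M] [T2Space M]
  [CompactSpace M] {o : Or M}

theorem cpt_box (R : ℝ) : IsCompact {z : ℂ | |z.re| ≤ R ∧ |z.im| ≤ 1} :=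
  Metric.isCompact_of_isClosed_isBounded
    ((isClosed_le continuous_re.abs continuous_const).inter
      (isClosed_le continuous_im.abs continuous_const))
    ((Metric.isBounded_closedBall (x := (0 : ℂ)) (r := R + 1)).subset fun z hz => by
      simpa using (norm_le_abs_re_add_abs_im z).trans (add_le_add hz.1 hz.2))

theorem closed_union {Z : Set M} {B : ℂ → M} (cl : IsClosed Z) (st : St o B)
    (hlim : ∀ O ∈ 𝓝ˢ Z, ∃ R, ∀ z : ℂ, |z.im| ≤ 1 → R ≤ |z.re| → B z ∈ O) {F : Set ℂ}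
    (hF : IsClosed F) (h1 : ∀ z ∈ F, |z.im| ≤ 1) : IsClosed (Z ∪ B '' F) := by
  refine isClosed_iff_nhds.2 fun y hy => by_contra fun hn => ?_
  obtain ⟨O, hO, V, hV, hd⟩ := (Filter.disjoint_iff).1
    (disjoint_nhdsSet_nhds.2 (by rw [cl.closure_eq]; exact fun k => hn (Or.inl k)) :
      Disjoint (𝓝ˢ Z) (𝓝 y))
  obtain ⟨R, hR⟩ := hlim O hO
  have hK := (((cpt_box R).inter_left hF).image (cont_of_pm st.1)).isClosed
  obtain ⟨w, ⟨w1, w2⟩, w3 | ⟨z, hz, rfl⟩⟩ := hy _ (inter_mem hV (hK.isOpen_compl.mem_nhds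
    fun k => hn (Or.inr (image_mono inter_subset_left k))))
  · exact disjoint_left.1 hd (subset_of_mem_nhdsSet hO w3) w1
  · exact disjoint_left.1 hd (hR z (h1 z hz) (not_lt.1 fun k => w2 ⟨z, ⟨hz, k.le, h1 z hz⟩, rfl⟩)) w1

/-- a strip whose two ends run into `Z` is an arc -/
theorem exists_arc {Z : Set M} {B : ℂ → M} (cl : IsClosed Z) (conn : IsPreconnected Z)
    (st : St o B) (off : ∀ z, B z ∉ Z)
    (hlim : ∀ O ∈ 𝓝ˢ Z, ∃ R, ∀ z : ℂ, |z.im| ≤ 1 → R ≤ |z.re| → B z ∈ O)
    (cc : IsPreconnected (Z ∪ core B)ᶜ) : ∃ η, Arc o Z B η := by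
  obtain ⟨η₀, s0, sm0, nn0⟩ := cl.isOpen_compl.exists_contMDiff_support_eq (n := (⊤ : ℕ∞)) IC
  have z0 : ∀ x, η₀ x = 0 ↔ x ∈ Z := fun x => by
    rw [← not_iff_not]; exact Set.ext_iff.1 s0 x
  let χ : ℂ → ℝ := fun z => Real.smoothTransition (1 - z.im ^ 2)
  let g : ℝ → ℝ := fun s => (1 + s ^ 2)⁻¹
  have gp : ∀ s, 0 < g s := fun s => by positivity
  have c0 : ∀ z, 0 ≤ χ z := fun z => Real.smoothTransition.nonneg _
  have c1 : ∀ z, χ z ≤ 1 := fun z => Real.smoothTransition.le_one _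
  have c2 : ∀ z : ℂ, ¬ |z.im| ≤ 1 → χ z = 0 := fun z hz =>
    Real.smoothTransition.zero_of_nonpos (by nlinarith [sq_abs z.im, not_le.1 hz])
  let η : M → ℝ := fun x => η₀ x + extend B (fun z => χ z * (g z.re - η₀ (B z))) 0 x
  have e1 : ∀ z, η (B z) = (1 - χ z) * η₀ (B z) + χ z * g z.re := fun z => by
    simp only [η, st.2.extend_apply]; ring
  have e2 : ∀ x ∉ B '' {z | |z.im| ≤ 1}, η x = η₀ x := fun x hx => by
    by_cases h : ∃ z, B z = x
    · obtain ⟨z, rfl⟩ := h
      rw [e1, c2 z fun k => hx ⟨z, k, rfl⟩]; ring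
    · simp only [η, extend_apply' _ _ _ h]; simp
  have e3 : ∀ s : ℝ, η (B s) = g s := fun s => by
    rw [e1]; simp [χ]
  have le : ∀ z (a : ℝ), η₀ (B z) < a → g z.re < a → η (B z) < a := fun z a h1 h2 => by
    rw [e1]
    have k1 := mul_le_mul_of_nonneg_left (le_max_left (η₀ (B z)) (g z.re)) (sub_nonneg.2 (c1 z))
    have k2 := mul_le_mul_of_nonneg_left (le_max_right (η₀ (B z)) (g z.re)) (c0 z)
    have k3 := max_lt h1 h2
    nlinarith
  have ps : ∀ z, 0 < η (B z) := fun z => by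
    rw [e1]
    have k0 : 0 < η₀ (B z) := (nn0 _).lt_of_ne' fun k => off z ((z0 _).1 k)
    have k1 := mul_le_mul_of_nonneg_left (min_le_left (η₀ (B z)) (g z.re)) (sub_nonneg.2 (c1 z))
    have k2 := mul_le_mul_of_nonneg_left (min_le_right (η₀ (B z)) (g z.re)) (c0 z)
    have k3 := lt_min k0 (gp z.re)
    nlinarith
  have out : ∀ x, (¬ ∃ z, B z = x) → η x = η₀ x := fun x h => e2 x fun ⟨z, _, k⟩ => h ⟨z, k⟩
  have nn : ∀ x, 0 ≤ η x := fun x => by
    by_cases h : ∃ z, B z = x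
    · obtain ⟨z, rfl⟩ := h
      exact (ps z).le
    · exact out x h ▸ nn0 x
  have zero : ∀ x, η x = 0 ↔ x ∈ Z := fun x => by
    by_cases h : ∃ z, B z = x
    · obtain ⟨z, rfl⟩ := h
      exact iff_of_false (ps z).ne' (off z)
    · exact out x h ▸ z0 x
  have gs : ContDiff ℝ ∞ g := ContDiff.inv (by fun_prop) fun s => by positivity
  have gl : Tendsto g (cocompact ℝ) (𝓝 0) := by
    have := tendsto_inv_atTop_zero.comp (tendsto_atTop_add_const_left _ (1 : ℝ)
      ((tendsto_pow_atTop two_ne_zero).comp (tendsto_norm_cocompact_atTop (E := ℝ))))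
    refine this.congr fun s => by simp [g]
  have sm : ∀ x ∉ Z, ContMDiffAt IC IR ∞ η x := fun x hx => by
    by_cases h : ∃ z, B z = x
    · obtain ⟨z, rfl⟩ := h
      refine Cyl58.contMDiffAt_of_comp (st.1 z).1 ?_
      have k1 : ContMDiff IC IR ∞ χ := contMDiff_iff_contDiff.2
        (Real.smoothTransition.contDiff.comp (contDiff_const.sub (imCLM.contDiff.pow 2)))
      have k2 : ContMDiff IC IR ∞ fun z : ℂ => g z.re :=
        contMDiff_iff_contDiff.2 (gs.comp reCLM.contDiff)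
      have k3 : ContDiff ℝ ∞ fun z => η₀ (B z) := contMDiff_iff_contDiff.1 (sm0.comp (sm_of_pm st.1))
      rw [show η ∘ B = _ from funext e1]
      exact contMDiff_iff_contDiff.2 (((contDiff_const.sub (contMDiff_iff_contDiff.1 k1)).mul k3).add
        ((contMDiff_iff_contDiff.1 k1).mul (contMDiff_iff_contDiff.1 k2))) z
    · refine (sm0 x).congr_of_eventuallyEq ?_
      filter_upwards [(closed_union cl st hlim (F := {z | |z.im| ≤ 1}) (isClosed_le (by fun_prop)
        continuous_const) fun _ k => k).isOpen_compl.mem_nhds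
        (fun k => k.elim hx fun ⟨z, _, k⟩ => h ⟨z, k⟩)] with y hy
      exact e2 y fun k => hy (Or.inr k)
  refine ⟨η, cl, conn, st, off, ?_, cc, continuous_iff_continuousAt.2 fun x => ?_, nn, zero,
    fun x hx => (sm x hx).contMDiffWithinAt, ⟨1, fun t ht => ?_⟩, gl.congr fun s => (e3 s).symm⟩
  · convert closed_union cl st hlim (F := {z | z.im = 0}) (isClosed_eq (by fun_prop)
      continuous_const) fun z k => by rw [show z.im = 0 from k]; simp using 2
    ext y
    exact ⟨fun ⟨s, k⟩ => ⟨s, by simp, k⟩, fun ⟨z, k, e⟩ => e ▸ mem_core k⟩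
  · by_cases hx : x ∈ Z
    swap
    · exact (sm x hx).continuousAt
    rw [ContinuousAt, (zero x).2 hx]
    refine tendsto_order.2 ⟨fun a ha => Eventually.of_forall fun y => ha.trans_le (nn y),
      fun a ha => ?_⟩
    obtain ⟨K, hK, h⟩ := mem_cocompact.1 (gl.eventually (gt_mem_nhds ha))
    obtain ⟨R, hR⟩ := hK.isBounded.exists_norm_le
    filter_upwards [((cpt_box R).image (cont_of_pm st.1)).isClosed.isOpen_compl.mem_nhds
      (fun ⟨z, _, k⟩ => off z (k ▸ hx)), sm0.continuous.continuousAt.eventually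
      (gt_mem_nhds (((z0 x).2 hx).symm ▸ ha : η₀ x < a))] with y y1 y2
    by_cases hy : y ∈ B '' {z | |z.im| ≤ 1}
    · obtain ⟨z, hz, rfl⟩ := hy
      exact le z a y2 (h fun k => y1 ⟨z, ⟨hR _ k, hz⟩, rfl⟩)
    · rwa [e2 y hy]
  · have hd : HasDerivAt g (-(2 * t) / (1 + t ^ 2) ^ 2) t := by
      have := ((hasDerivAt_pow 2 t).const_add 1).inv (by positivity)
      norm_num at this
      exact this
    rw [show (fun s : ℝ => η (B s)) = g from funext e3, hd.deriv, ← mul_div_assoc]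
    exact div_neg_of_neg_of_pos (by nlinarith [sq_abs t]) (by positivity)

end Crest.Agent.X212.Cut44
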