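import Crest.Agent.X212.Cut44.Strip
import Crest.Agent.X212.Cut44.Eta

/-!
# Row 212, PERF, CUT (helper44): the cut system of a gradient-like flow

A spanning tree of unstable manifolds, a dual spanning tree of stable manifolds, and the unstable
manifolds of the remaining saddles as arcs.
-/

set_option autoImplicit false
set_option linter.unusedSectionVars false
noncomputable section
open Set Filter Topology Function Complex
open scoped ContDiff Manifold

namespace Crest.Agent.X212.Cut44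

open Crest.Agent.X212.Prf6

variable {M : Type*} [TopologicalSpace M] [ChartedSpace ℂ M] [IsManifold IC ∞ M] [T2Space M]
  [CompactSpace M] {o : Or M}

namespace Dy

/-- sinks and unstable manifolds of the saddles in `S` -/
def Zs (d : Dy o) (S : Set M) : Set M := {y | d.Mx y ∨ d.rev.om y ∈ S}

/-- basins of the sinks and stable manifolds of the saddles in `S` -/
def Ws (d : Dy o) (S : Set M) : Set M := {y | d.Mx (d.om y) ∨ d.om y ∈ S}

variable {d : Dy o} {S S' : Set M} {s p q x : M} {B : ℂ → M}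

theorem compl_Zs (hS : ∀ s ∈ S, d.Sd s) : (d.Zs S)ᶜ = d.rev.Ws {s | d.Sd s ∧ s ∉ S} := by
  ext y
  constructor
  · intro h
    rcases tri (d := d) (d.rev.om_mem y) with k | k | k
    · exact (h (Or.inl (eq_of_mx k ▸ k))).elim
    · exact Or.inl k
    · exact Or.inr ⟨k, fun j => h (Or.inr j)⟩
  · rintro (k | k) (j | j)
    · exact j.nmn (d.rev.om_crit j.1 ▸ k)
    · exact k.nsd (d.rev_sd ▸ hS _ j)
    · exact j.nsd (d.rev.om_crit j.1 ▸ k.1)
    · exact k.2 j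

theorem open_of' {A : M → Prop} (h : ∀ s, A s → d.Mx s ∨ ∃ p q B, Sp d s p q B ∧ A p ∧ A q) :
    IsOpen {y | A (d.om y)} := by
  refine open_of fun s hs => (h s hs).elim (fun k => k.ev.mono fun y e _ => e.symm ▸ hs) ?_
  rintro ⟨p, q, B, k, hp, hq⟩
  filter_upwards [k.st.isOpenEmbedding.isOpen_range.mem_nhds ⟨0, k.ctr⟩]
  rintro _ ⟨z, rfl⟩ -
  rcases k.fw z with e | e | e <;> rwa [e]

theorem open_Ws (hS : ∀ s ∈ S, d.Sd s) : IsOpen (d.Ws S) :=
  open_of' (A := fun p => d.Mx p ∨ p ∈ S) fun s hs => hs.imp_right fun k =>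
    let ⟨p, q, B, h⟩ := exists_sp (hS s k)
    ⟨p, q, B, h, Or.inl h.mp, Or.inl h.mq⟩

theorem closed_Zs (hS : ∀ s ∈ S, d.Sd s) : IsClosed (d.Zs S) := by
  rw [← isOpen_compl_iff, compl_Zs hS]
  exact open_Ws fun s k => d.rev_sd ▸ k.1

theorem Zs_insert (h : Sp d s p q B) : d.Zs (insert s S) = d.Zs S ∪ core B := by
  ext y
  simp only [Zs, mem_ofPred_eq, mem_insert_iff, mem_union, h.core]
  tauto

theorem Zs_sub (hS : ∀ s ∈ S, d.Sd s) : d.Zs S ⊆ d.Ws S := by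
  rintro y (k | k)
  · exact Or.inl ((d.om_crit k.1).symm ▸ k)
  · by_cases e : y = d.rev.om y
    · exact Or.inr (by rw [e, d.om_crit (hS _ k).1]; exact k)
    · exact Or.inl ((hS _ k).end_mx rfl e)

theorem conn_Zs (h : IsPreconnected (d.Zs S)) (hx : d.Mx x) (hs : S ⊆ S') (hS : ∀ s ∈ S', d.Sd s) :
    IsPreconnected (d.Zs S') := by
  have m : d.Zs S ⊆ d.Zs S' := fun y k => k.imp_right fun j => hs j
  refine isPreconnected_of_forall x ?_
  rintro y (k | k)
  · exact ⟨_, m, Or.inl hx, Or.inl k, h⟩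
  · obtain ⟨p, q, B, hB⟩ := exists_sp (hS _ k)
    exact ⟨_, union_subset m fun z hz => Or.inr (((hB.core z).1 hz).symm ▸ k), Or.inl (Or.inl hx),
      Or.inr ((hB.core y).2 rfl), conn_step hB.st h (Or.inl hB.mp) hB.ttop⟩

theorem conn_Ws (h : IsPreconnected (d.Zs S)) (hx : d.Mx x) (hS : ∀ s ∈ S, d.Sd s) :
    IsPreconnected (d.Ws S) := by
  refine isPreconnected_of_forall x fun y hy => ⟨d.Zs S ∪ range fun t => d.Φ t y,
    union_subset (Zs_sub hS) ?_, Or.inl (Or.inl hx), Or.inr ⟨0, d.zero y⟩, conn_curve (d.orb y) h (hy.imp_right fun k => ?_) (d.om_lim y)⟩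
  · rintro _ ⟨t, rfl⟩
    simpa only [Ws, mem_ofPred_eq, d.om_flow] using hy
  · rwa [d.rev.om_crit (d.om_mem y)]

theorem dense (hS : ∀ s ∈ S', d.Sd s) : d.rev.Ws S' ⊆ closure (d.rev.Ws S) := by
  rintro y (k | k)
  · exact subset_closure (Or.inl k)
  · obtain ⟨p, q, B, hB⟩ := exists_sp (hS _ k)
    obtain ⟨t, ht⟩ := (hB.core y).2 rfl
    rw [← ht]
    exact map_mem_closure (s := {z : ℂ | 0 < z.im}) (cont_of_pm hB.st.1)
      (by rw [closure_setOfPred_lt_im]; simp) fun z hz => Or.inl (hB.bw z (ne_of_gt hz))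

theorem absorb (hS : ∀ s ∈ S, d.Sd s) {O L : Set M} (hO : IsOpen O) (h : d.Zs S ⊆ O)
    (hL : IsCompact L) (h' : L ⊆ d.Ws S) : ∃ T, ∀ y ∈ L, d.Φ T y ∈ O := by
  obtain ⟨T, hT⟩ := unif (d := d) (N := ⋃₀ {N | IsOpen N ∧ d.Inv N ∧ N ⊆ O})
    (isOpen_sUnion fun N k => k.1) (fun t ht y ⟨N, k, hy⟩ => ⟨N, k, k.2.1 t ht y hy⟩) hL
    fun y hy => by
      rcases h' hy with k | k
      · obtain ⟨N, n1, n2, n3, n4⟩ := k.stab (hO.mem_nhds (h (Or.inl k)))
        exact ⟨N, ⟨n1, n2, n3⟩, n4⟩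
      · obtain ⟨p, q, B, hB⟩ := exists_sp (hS _ k)
        obtain ⟨N, n1, n2, n3, n4⟩ := hB.stab hO
          (fun z hz => h (Or.inr (((hB.core z).1 hz).symm ▸ k))) (h (Or.inl hB.mp)) (h (Or.inl hB.mq))
        exact ⟨N, ⟨n1, n2, n3⟩, n4⟩
  exact ⟨T, fun y hy => let ⟨_, k, j⟩ := hT T le_rfl y hy; k.2.2 j⟩

/-- spanning trees -/
theorem span [Nonempty M] {E : Set M} (hE : ∀ s ∈ E, d.Sd s) (hc : IsPreconnected (d.Ws E)) :
    ∃ x S, S ⊆ E ∧ d.Mx x ∧ Tr o x (d.Zs S) := by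
  obtain ⟨p₀, h₀⟩ := d.exists_mx
  obtain ⟨P, ⟨hP, x, hx, S, hS, T⟩, mx⟩ := Set.Finite.exists_maximal
    (s := {P : Set M | (∀ p ∈ P, d.Mx p) ∧ ∃ x ∈ P, ∃ S ⊆ E, Tr o x (P ∪ {y | d.rev.om y ∈ S})})
    (d.C.finite_toSet.powerset.subset fun P k p hp => (k.1 p hp).1)
    ⟨{p₀}, by simpa using h₀, p₀, rfl, ∅, empty_subset _, by simpa using Tr.pt⟩
  have mem : ∀ p, d.Mx p → p ∈ P ∪ {y | d.rev.om y ∈ S} → p ∈ P := fun p hp k =>
    k.resolve_right fun j => hp.nsd (hE _ (hS (d.rev.om_crit hp.1 ▸ j)))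
  have mixed : ∀ s p q B, Sp d s p q B → s ∈ E → q ∈ P → p ∈ P := fun s p q B h hs hq => by
    by_contra hp
    have hsS : s ∉ S := fun k => hp (mem p h.mp (T.isCompact.isClosed.mem_of_tendsto h.ttop
      (Eventually.of_forall fun t => Or.inr (show d.rev.om _ ∈ S from
        ((h.core _).1 ⟨t, rfl⟩).symm ▸ k))))
    have T' := T.leaf (h.lf fun e => hp (e ▸ hq)) (Or.inl hq) (disjoint_left.2 (by
      rintro y (⟨t, rfl⟩ | rfl) k
      · exact k.elim (fun j => h.nmx t (hP _ j)) fun j => hsS ((h.core _).1 ⟨t, rfl⟩ ▸ j)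
      · exact hp (mem _ h.mp k)))
    refine hp (mx (y := insert p P) ⟨?_, x, Or.inr hx, insert s S, insert_subset hs hS, ?_⟩
      (subset_insert _ _) (mem_insert _ _))
    · rintro _ (rfl | k)
      · exact h.mp
      · exact hP _ k
    · convert T' using 1
      ext y
      simp only [mem_ofPred_eq, mem_insert_iff, mem_union, h.core, mem_singleton_iff]
      tauto
  have all : ∀ p, d.Mx p → p ∈ P := fun p hp => by
    by_contra hn
    choose! P₁ P₂ Bs hB using fun s (h : d.Sd s) => exists_sp h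
    obtain ⟨y, -, k1, k2⟩ := hc _ _
      (open_of' (A := fun s => s ∈ P ∨ (s ∈ E ∧ P₁ s ∈ P)) fun s hs => hs.imp (hP s) fun k =>
        ⟨_, _, _, hB s (hE s k.1), Or.inl k.2, Or.inl (mixed _ _ _ _ (hB s (hE s k.1)).neg k.1 k.2)⟩)
      (open_of' (A := fun s => (d.Mx s ∧ s ∉ P) ∨ (s ∈ E ∧ P₁ s ∉ P)) fun s hs =>
        hs.imp And.left fun k => ⟨_, _, _, hB s (hE s k.1), Or.inl ⟨(hB s (hE s k.1)).mp, k.2⟩,
          Or.inl ⟨(hB s (hE s k.1)).mq, fun j => k.2 (mixed _ _ _ _ (hB s (hE s k.1)) k.1 j)⟩⟩)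
      (fun y hy => by
        have : d.Mx (d.om y) ∨ d.om y ∈ E := hy
        simp only [mem_union, mem_ofPred_eq]
        tauto)
      ⟨x, Zs_sub hE (Or.inl (hP x hx)), Or.inl ((d.om_crit (hP x hx).1).symm ▸ hx)⟩
      ⟨p, Zs_sub hE (Or.inl hp), Or.inl ((d.om_crit hp.1).symm ▸ ⟨hp, hn⟩)⟩
    rcases k1 with k1 | k1 <;> rcases k2 with k2 | k2
    · exact k2.2 k1
    · exact (hP _ k1).nsd (hE _ k2.1)
    · exact k2.1.nsd (hE _ k1.1)
    · exact k2.2 k1.2
  refine ⟨x, S, hS, hP x hx, ?_⟩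
  convert T using 1
  ext y
  exact or_congr_left ⟨all y, hP y⟩

theorem cut [Nonempty M] (d : Dy o) (hc : IsPreconnected (univ : Set M)) :
    ∃ x, Nonempty (Cut o x) := by
  obtain ⟨x, S, hS, mx, T⟩ := span (d := d) (E := {s | d.Sd s}) (fun _ k => k) (by
    convert fin_compl o hc (d.C.finite_toSet.subset fun p (k : d.rev.Mx p) => k.1) using 1
    ext y
    refine ⟨fun k j => ?_, fun k => ?_⟩
    · have e := d.om_crit j.1
      exact k.elim (fun i => i.nmn (e.symm ▸ j)) fun i => Mx.nsd (d := d.rev) j (d.rev_sd ▸ e ▸ i)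
    · rcases tri (d.om_mem y) with j | j | j
      · exact Or.inl j
      · exact (k (eq_of_mn j ▸ j)).elim
      · exact Or.inr j)
  obtain ⟨x', S', hS', mx', T'⟩ := span (d := d.rev) (E := {s | d.Sd s ∧ s ∉ S})
    (fun _ k => d.rev_sd ▸ k.1) (compl_Zs hS ▸ T.compl hc)
  have sd' : ∀ s ∈ S', d.rev.Sd s := fun s k => d.rev_sd ▸ (hS' k).1
  have cW := conn_Ws T'.conn mx' sd'
  have oW := open_Ws sd'
  obtain ⟨n, e, e1, e2⟩ := (d.C.finite_toSet.subset
    fun s (k : d.Sd s ∧ s ∉ S ∧ s ∉ S') => k.1.1).fin_param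
  have he : ∀ i, d.Sd (e i) ∧ e i ∉ S ∧ e i ∉ S' := fun i => e2.subset ⟨i, rfl⟩
  let A : ℕ → Set M := fun j => S ∪ e '' {i | i.val < j}
  have sd : ∀ j, ∀ s ∈ A j, d.Sd s := by
    rintro j s (k | ⟨i, -, rfl⟩)
    · exact hS k
    · exact (he i).1
  have sub : ∀ j, S' ⊆ {s | d.Sd s ∧ s ∉ A j} := fun j s k => ⟨(hS' k).1, by
    rintro (i | ⟨i, -, rfl⟩)
    · exact (hS' k).2 i
    · exact (he i).2.2 k⟩
  have step : ∀ j, ∃ B η, j < n → Arc o (d.Zs (A j)) B η ∧ d.Zs (A (j + 1)) = d.Zs (A j) ∪ core B := by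
    intro j
    by_cases hj : j < n
    swap
    · exact ⟨fun _ => x, fun _ => 0, fun k => absurd k hj⟩
    obtain ⟨p, q, B, hB⟩ := exists_sp (he ⟨j, hj⟩).1
    have eA : d.Zs (A (j + 1)) = d.Zs (A j) ∪ core B := by
      rw [← Zs_insert hB]
      congr 1
      simp only [A]
      rw [← union_insert, ← image_insert_eq]
      congr 2
      ext i
      simp only [mem_ofPred_eq, mem_insert_iff, Fin.ext_iff]
      omega
    obtain ⟨η, hη⟩ := exists_arc (closed_Zs (sd j)) (conn_Zs T.conn mx subset_union_left (sd j)) hB.st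
      (fun z k => k.elim (hB.nmx z) fun k => by
        by_cases hz : z.im = 0
        · rw [(hB.core _).1 (mem_core hz)] at k
          rcases k with k | ⟨i, k, k'⟩
          · exact (he _).2.1 k
          · rw [e1 k'] at k
            exact lt_irrefl j k
        · exact (hB.bw z hz).nsd (d.rev_sd ▸ sd j _ k))
      (fun O hO => by
        obtain ⟨R, hR⟩ := hB.top O (nhds_le_nhdsSet (show p ∈ d.Zs (A j) from Or.inl hB.mp) hO)
        obtain ⟨R', hR'⟩ := hB.bot O (nhds_le_nhdsSet (show q ∈ d.Zs (A j) from Or.inl hB.mq) hO)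
        exact ⟨max R R', fun z _ k => (le_abs.1 k).elim (fun i => hR z ((le_max_left _ _).trans i))
          fun i => hR' z ((le_max_right _ _).trans i)⟩)
      (by
        rw [← eA, compl_Zs (sd _)]
        exact cW.subset_closure (fun y k => k.imp_right fun i => sub _ i) (dense fun s k => k.1))
    exact ⟨B, η, fun _ => ⟨hη, eA⟩⟩
  choose B η h using step
  have last : (d.Zs (A n))ᶜ = d.rev.Ws S' := by
    rw [compl_Zs (sd n)]
    congr 1
    refine Subset.antisymm (fun s k => by_contra fun j => ?_) (sub n)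
    obtain ⟨i, rfl⟩ := e2.superset ⟨k.1, fun i => k.2 (Or.inl i), j⟩
    exact k.2 (Or.inr ⟨i, i.2, rfl⟩)
  refine ⟨x, ⟨⟨n, fun j => d.Zs (A j), B, η, closed_Zs (sd 0), Or.inl mx, fun j k => (h j k).1,
    fun j k => (h j k).2, fun O hO => ?_, ?_⟩⟩⟩
  · obtain ⟨φ, f1, -, f3, f4⟩ := T.shrink univ O isOpen_univ (subset_univ _) hO
    exact ⟨φ, f1, f3, by simpa [A] using f4⟩
  · simp only [last]
    obtain ⟨D, hD, d0, d1⟩ := exists_st o x' (oW.mem_nhds (Zs_sub sd' T'.mem))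
    obtain ⟨ψ, f1, f2, -, f4⟩ := T'.shrink _ (range D) oW (Zs_sub sd')
      (hD.isOpenEmbedding.isOpen_range.mem_nhds ⟨0, d0⟩)
    refine ⟨D, hD, d1, fun L hL hs => ?_⟩
    obtain ⟨τ, hτ⟩ := absorb sd' (hD.isOpenEmbedding.isOpen_range.preimage (G_cont (f1.mem 1)))
      (image_subset_iff.1 f4) hL hs
    refine ⟨fun t => ψ t * d.rev.Φ (t * τ), f1.mul (d.rev.iso.reparam (by fun_prop) (by simp)),
      fun t => ?_, ?_⟩
    · rintro _ ⟨y, hy, rfl⟩
      refine (mem_iff_of_fix (f2 t) _).2 ?_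
      simpa only [Ws, mem_ofPred_eq, d.rev.om_flow] using hs hy
    · rintro _ ⟨y, hy, rfl⟩
      simpa using hτ y hy

end Dy

/-- CUT -/
theorem cutS : CutS := fun _ m hn hc => (ofMo m hn).cut hc

end Crest.Agent.X212.Cut44
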