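import Crest.Agent.X212.Cut44.Dy

/-!
# Row 212, PERF, CUT (helper44): the strip along the unstable manifold of a saddle
-/

set_option autoImplicit false
set_option linter.unusedSectionVars false
noncomputable section
open Set Filter Topology Function Complex
open scoped ContDiff Manifold

namespace Crest.Agent.X212.Cut44

open Crest.Agent.X212.Prf6

theorem ln_add (a b s t : ℝ) (z : ℂ) : ln a b s (ln a b t z) = ln a b (s + t) z := by
  apply Complex.ext <;> simp [ln, mul_add, Real.exp_add, mul_assoc]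

theorem ln_zero (a b : ℝ) (z : ℂ) : ln a b 0 z = z := by apply Complex.ext <;> simp [ln]

theorem pm_ln (a b t : ℝ) (z : ℂ) : Pm oC oC (ln a b t) z :=
  pm_tri (g := fun x => Real.exp (a * t) * x) (h := fun _ => Real.exp (b * t)) (σ := id)
    (by fun_prop) contDiff_const contDiff_id z
    (by rw [deriv_const_mul_field]; simpa using Real.exp_pos _) (Real.exp_pos _) (by simp)

/-- `√(1 + x²)` -/
def rt (x : ℝ) : ℝ := √(1 + x ^ 2)

theorem rt_pos (x : ℝ) : 0 < rt x := Real.sqrt_pos.2 (by positivity)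

theorem abs_le_rt (x : ℝ) : |x| ≤ rt x := Real.abs_le_sqrt (by linarith)

theorem rt_le {c : ℝ} (hc : 1 ≤ c) (x : ℝ) : rt (c * x) ≤ c * rt x :=
  Real.sqrt_le_iff.2 ⟨mul_nonneg (by linarith) (rt_pos x).le, by
    rw [mul_pow, mul_pow, rt, Real.sq_sqrt (by positivity)]; nlinarith⟩

/-- the plane into the region `|x y| ≤ δ` -/
def th (δ : ℝ) : ℂ → ℂ := tri id (fun x => δ / (2 * rt x)) Real.arctan

theorem th_re (δ : ℝ) (z : ℂ) : (th δ z).re = z.re := rfl
theorem th_im (δ : ℝ) (z : ℂ) : (th δ z).im = δ / (2 * rt z.re) * Real.arctan z.im := rfl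

theorem pm_th {δ : ℝ} (hδ : 0 < δ) (z : ℂ) : Pm oC oC (th δ) z :=
  pm_tri contDiff_id (contDiff_const.div (contDiff_const.mul (ContDiff.sqrt (by fun_prop)
    fun x => by positivity)) fun x => (mul_pos two_pos (rt_pos x)).ne') Real.contDiff_arctan z
    (by simp) (div_pos hδ (mul_pos two_pos (rt_pos _))) (deriv_arctan_pos _)

theorem th_inj {δ : ℝ} (hδ : 0 < δ) : Injective (th δ) := fun z w h => by
  have h1 : z.re = w.re := (congrArg re h :)
  have h2 := congrArg im h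
  rw [th_im, th_im, h1] at h2
  exact Complex.ext h1 (Real.arctan_injective
    (mul_left_cancel₀ (div_pos hδ (mul_pos two_pos (rt_pos _))).ne' h2))

theorem th_prod {δ : ℝ} (hδ : 0 < δ) (z : ℂ) : |(th δ z).re * (th δ z).im| ≤ δ := by
  have h0 := rt_pos z.re
  rw [th_re, th_im, abs_mul, abs_mul, abs_of_pos (div_pos hδ (mul_pos two_pos h0)),
    div_mul_eq_mul_div, ← mul_div_assoc, div_le_iff₀ (mul_pos two_pos h0)]
  have := mul_le_mul (abs_le_rt z.re) (abs_arctan_lt z.im).le (abs_nonneg _) h0.le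
  nlinarith

theorem th_fwd {δ t : ℝ} (ht : 0 ≤ t) (z : ℂ) : ∃ z' : ℂ, z'.re = Real.exp t * z.re ∧
    |z'.im| ≤ |z.im| ∧ th δ z' = ln 1 (-1) t (th δ z) := by
  have h0 := rt_pos z.re
  have h1 := rt_pos (Real.exp t * z.re)
  have h2 := rt_le (Real.one_le_exp ht) z.re
  have h3 := Real.exp_pos t
  let l := rt (Real.exp t * z.re) / (Real.exp t * rt z.re)
  obtain ⟨y, hy, e⟩ := intermediate_value_uIcc (a := 0) (b := z.im)
    Real.continuous_arctan.continuousOn (show l * Real.arctan z.im ∈ _ by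
      rw [← segment_eq_uIcc, Real.arctan_zero]
      exact ⟨1 - l, l, sub_nonneg.2 ((div_le_one (by positivity)).2 h2), by positivity, by ring,
        by simp⟩)
  refine ⟨⟨Real.exp t * z.re, y⟩, rfl, by simpa using abs_sub_left_of_mem_uIcc hy,
    Complex.ext (by simp [ln, th_re]) ?_⟩
  simp only [ln, th_im, e, l, neg_one_mul, Real.exp_neg]
  field_simp

variable {M : Type*} [TopologicalSpace M] [ChartedSpace ℂ M] [IsManifold IC ∞ M] [T2Space M]
  [CompactSpace M] {o : Or M} {d : Dy o} {s p q : M} {B : ℂ → M}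

namespace Dy

theorem Sd.al_axis (h : d.Sd s) {u : ℝ} (hu : u ^ 2 < 1) : d.rev.om (d.Q s ⟨u, 0⟩) = s := by
  have := Sd.om_axis (d := d.rev) (d.rev_sd ▸ h) (w := -u) (by simpa using hu)
  rwa [show d.rev.Q s ⟨0, -u⟩ = d.Q s ⟨u, 0⟩ from
    congrArg (d.Q s) (Complex.ext (by simp) (by simp) : I * ⟨0, -u⟩ = ⟨u, 0⟩)] at this

/-- no return to the box of a saddle -/
theorem Sd.noret (h : d.Sd s) {u v : ℂ} (u1 : u.re ^ 2 ≤ 1 / 4) (u2 : u.im ^ 2 ≤ 1 / 4)
    (v1 : v.re ^ 2 ≤ 1 / 4) (v2 : v.im ^ 2 ≤ 1 / 4) {t : ℝ} (ht : 0 ≤ t)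
    (e : d.Φ t (d.Q s u) = d.Q s v) : v = ln 1 (-1) t u := by
  have hu : ‖u‖ < 1 := nlt.2 (by linarith)
  have hv : ‖v‖ < 1 := nlt.2 (by linarith)
  have im : ∀ r, 0 ≤ r → (ln 1 (-1) r u).im ^ 2 ≤ 1 / 4 := fun r hr => by
    have h1 : Real.exp (-1 * r) ≤ 1 := Real.exp_le_one_iff.2 (by linarith)
    have h2 := Real.exp_pos (-1 * r)
    have h3 : Real.exp (-1 * r) ^ 2 ≤ 1 := by nlinarith
    simp only [ln, mul_pow]
    nlinarith [sq_nonneg u.im]
  by_cases k : (ln 1 (-1) t u).re ^ 2 ≤ 9 / 16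
  · have h1 : ‖ln 1 (-1) t u‖ < 1 := nlt.2 (by linarith [im t ht])
    rw [h.lin t hu h1] at e
    exact (d.inj s h.1 (mem_ball_zero_iff.2 h1) (mem_ball_zero_iff.2 hv) e).symm
  obtain ⟨r, hr, k'⟩ := intermediate_value_Icc ht (f := fun r => (ln 1 (-1) r u).re ^ 2)
    (by simp only [ln]; fun_prop) (show 9 / 16 ∈ _ from ⟨by rw [ln_zero]; linarith, (not_le.1 k).le⟩)
  have h1 : ‖ln 1 (-1) r u‖ < 1 := nlt.2 (by linarith [im r hr.1])
  have h2 := d.mono (d.Q s u) hr.2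
  simp only [e, h.lin r hu h1, d.fQ s h.1 _ h1, d.fQ s h.1 _ hv, h.ab.1, h.ab.2] at h2 k'
  have h3 := le_of_mul_le_mul_left (le_of_add_le_add_left h2) (d.cpos s h.1)
  nlinarith [im r hr.1, sq_nonneg v.im]

end Dy

/-- the strip of the saddle `s` with ends at the sinks `p`, `q` -/
structure Sp (d : Dy o) (s p q : M) (B : ℂ → M) : Prop where
  st : St o B
  sd : d.Sd s
  ctr : B 0 = s
  core : ∀ y, y ∈ core B ↔ d.rev.om y = s
  bw : ∀ z : ℂ, z.im ≠ 0 → d.rev.Mx (d.rev.om (B z))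
  fwd : ∀ (z : ℂ) t, 0 ≤ t → ∃ z' : ℂ, z'.re = Real.exp t * z.re ∧ |z'.im| ≤ |z.im| ∧
    d.Φ t (B z) = B z'
  fw : ∀ z, d.om (B z) = s ∨ d.om (B z) = p ∨ d.om (B z) = q
  top : ∀ O ∈ 𝓝 p, ∃ R, ∀ z : ℂ, R ≤ z.re → B z ∈ O
  bot : ∀ O ∈ 𝓝 q, ∃ R, ∀ z : ℂ, R ≤ -z.re → B z ∈ O
  mp : d.Mx p
  mq : d.Mx q

theorem exists_sp (h : d.Sd s) : ∃ p q B, Sp d s p q B := by
  have ne : ∀ z : ℂ, ‖z‖ < 1 → z ≠ 0 → d.Q s z ≠ s := fun z h1 h2 k =>
    h2 (d.inj s h.1 (mem_ball_zero_iff.2 h1) (by simp) (k.trans (d.ctr s h.1).symm))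
  have cQ : ∀ z : ℂ, ‖z‖ < 1 → ContinuousAt (d.Q s) z := fun z hz =>
    (d.pos s h.1 z hz).1.contMDiffAt.continuousAt
  let P : ℝ → M := fun ε => d.om (d.Q s ⟨ε / 2, 0⟩)
  have mx : ∀ ε : ℝ, ε ^ 2 = 1 → d.Mx (P ε) := fun ε hε => h.end_mx (h.al_axis (by nlinarith))
    (ne _ (nlt.2 (by simp only; nlinarith)) fun k => by
      have : ε / 2 = 0 := congrArg re k
      nlinarith)
  have mn : ∀ ε : ℝ, ε ^ 2 = 1 → d.rev.Mx (d.rev.om (d.Q s ⟨0, ε / 2⟩)) := fun ε hε =>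
    Dy.Sd.end_mx (d := d.rev) (d.rev_sd ▸ h) (d.rr_om ▸ h.om_axis (by nlinarith))
    (ne _ (nlt.2 (by simp only; nlinarith)) fun k => by
      have : ε / 2 = 0 := congrArg im k
      nlinarith)
  have ev : ∀ ε : ℝ, ε ^ 2 = 1 → ∀ᶠ y : ℝ in 𝓝 0, d.om (d.Q s ⟨ε / 2, y⟩) = P ε ∧
      d.rev.om (d.Q s ⟨y, ε / 2⟩) = d.rev.om (d.Q s ⟨0, ε / 2⟩) := fun ε hε => by
    have c1 : Continuous fun y : ℝ => (⟨ε / 2, y⟩ : ℂ) :=
      equivRealProdCLM.symm.continuous.comp (continuous_const.prodMk continuous_id)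
    have c2 : Continuous fun y : ℝ => (⟨y, ε / 2⟩ : ℂ) :=
      equivRealProdCLM.symm.continuous.comp (continuous_id.prodMk continuous_const)
    exact ((ContinuousAt.comp (f := fun y : ℝ => (⟨ε / 2, y⟩ : ℂ)) (cQ _ (nlt.2 (by simp only; nlinarith)))
      c1.continuousAt).eventually ((mx ε hε).basin.mem_nhds rfl)).and
      ((ContinuousAt.comp (f := fun y : ℝ => (⟨y, ε / 2⟩ : ℂ)) (cQ _ (nlt.2 (by simp only; nlinarith)))
      c2.continuousAt).eventually ((mn ε hε).basin.mem_nhds rfl))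
  obtain ⟨ρ, hρ, hδ⟩ := Metric.eventually_nhds_iff.1 ((ev 1 (by norm_num)).and (ev (-1) (by norm_num)))
  obtain ⟨δ, δ0, δ1, δ2⟩ : ∃ δ : ℝ, 0 < δ ∧ δ ≤ 1 / 4 ∧ 2 * δ < ρ :=
    ⟨min (1 / 4) (ρ / 4), by positivity, min_le_left _ _, by linarith [min_le_right (1 / 4) (ρ / 4)]⟩
  replace hδ : ∀ ε : ℝ, ε ^ 2 = 1 → ∀ y : ℝ, |y| ≤ 2 * δ → d.om (d.Q s ⟨ε / 2, y⟩) = P ε ∧
      d.rev.Mx (d.rev.om (d.Q s ⟨y, ε / 2⟩)) := fun ε hε y hy => by
    have := hδ (y := y) (by simpa using hy.trans_lt δ2)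
    rcases sq_eq_one_iff.1 hε with rfl | rfl
    · exact ⟨this.1.1, this.1.2 ▸ mn _ hε⟩
    · exact ⟨this.2.1, this.2.2 ▸ mn _ hε⟩
  let L : ℂ → ℝ := fun z => Real.log (2 * rt z.re)
  let sq : ℂ → ℂ := fun z => ln 1 (-1) (-L z) (th δ z)
  have eL : ∀ z, Real.exp (L z) = 2 * rt z.re := fun z => Real.exp_log (mul_pos two_pos (rt_pos _))
  have sre : ∀ z, (sq z).re = z.re / (2 * rt z.re) := fun z => by
    simp only [sq, ln, th_re, one_mul, Real.exp_neg, eL]; ring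
  have sim : ∀ z, (sq z).im = δ * Real.arctan z.im := fun z => by
    have := rt_pos z.re
    simp only [sq, ln, th_im, neg_one_mul, neg_neg, eL]; field_simp
  have s1 : ∀ z, (sq z).re ^ 2 ≤ 1 / 4 := fun z => by
    have := rt_pos z.re
    rw [sre, div_pow, div_le_iff₀ (by positivity)]
    nlinarith [sq_le_sq' (abs_le.1 (abs_le_rt z.re)).1 (abs_le.1 (abs_le_rt z.re)).2]
  have s2 : ∀ z, (sq z).im ^ 2 ≤ 1 / 4 := fun z => by
    have h1 := abs_lt.1 (abs_arctan_lt z.im)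
    rw [sim]
    nlinarith [sq_le_sq' (show -(1 / 2) ≤ δ * Real.arctan z.im by nlinarith)
      (show δ * Real.arctan z.im ≤ 1 / 2 by nlinarith)]
  have s3 : ∀ z, ‖sq z‖ < 1 := fun z => nlt.2 (by linarith [s1 z, s2 z])
  let B : ℂ → M := fun z => d.Φ (L z) (d.Q s (sq z))
  have spec : ∀ z τ, ‖ln 1 (-1) (-τ) (th δ z)‖ < 1 →
      B z = d.Φ τ (d.Q s (ln 1 (-1) (-τ) (th δ z))) := fun z τ k => by
    have e : ln 1 (-1) (L z - τ) (sq z) = ln 1 (-1) (-τ) (th δ z) := by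
      rw [ln_add]; congr 1; ring
    rw [← e, ← h.lin _ (s3 z) (e ▸ k), ← d.add, add_sub_cancel]
  have axis : ∀ u τ : ℝ, u ^ 2 < 1 → B (Real.exp τ * u : ℝ) = d.Φ τ (d.Q s ⟨u, 0⟩) := fun u τ k => by
    have e : ln 1 (-1) (-τ) (th δ (Real.exp τ * u : ℝ)) = ⟨u, 0⟩ := by
      apply Complex.ext <;> simp [ln, th_re, th_im, Real.exp_neg, -ofReal_exp]
    rw [spec _ τ (e ▸ nlt.2 (by simpa using k)), e]
  have side : ∀ ε : ℝ, ε ^ 2 = 1 → ∀ z : ℂ, 0 < ε * z.re → ∃ y, |y| ≤ 2 * δ ∧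
      B z = d.Φ (Real.log (2 * (ε * z.re))) (d.Q s ⟨ε / 2, y⟩) := fun ε hε z hz => by
    have e : ln 1 (-1) (-Real.log (2 * (ε * z.re))) (th δ z) =
        ⟨ε / 2, 2 * ε * ((th δ z).re * (th δ z).im)⟩ := by
      have z0 : z.re ≠ 0 := right_ne_zero_of_mul hz.ne'
      have e0 : ε ≠ 0 := left_ne_zero_of_mul hz.ne'
      apply Complex.ext <;> simp only [ln, th_re, one_mul, neg_one_mul, neg_neg, Real.exp_neg,
        Real.exp_log (mul_pos two_pos hz)]
      · field_simp; linarith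
      · ring
    have b : |2 * ε * ((th δ z).re * (th δ z).im)| ≤ 2 * δ := by
      rw [abs_mul, abs_mul, show |ε| = 1 by rcases sq_eq_one_iff.1 hε with rfl | rfl <;> simp]
      simpa using th_prod δ0 z
    have := sq_le_sq' (abs_le.1 b).1 (abs_le.1 b).2
    exact ⟨_, b, by rw [spec z _ (by rw [e, nlt]; simp only; nlinarith), e]⟩
  have ends : ∀ ε : ℝ, ε ^ 2 = 1 → ∀ O ∈ 𝓝 (P ε), ∃ R, ∀ z : ℂ, R ≤ ε * z.re → B z ∈ O := by
    intro ε hε O hO
    obtain ⟨N, n1, n2, n3, n4⟩ := (mx ε hε).stab hO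
    obtain ⟨T, hT⟩ := Dy.unif n1 n2 ((isCompact_Icc (a := -(2 * δ)) (b := 2 * δ)).image_of_continuousOn
      (f := fun y => d.Q s ⟨ε / 2, y⟩) fun y hy => (ContinuousAt.comp
        (f := fun y : ℝ => (⟨ε / 2, y⟩ : ℂ)) (cQ _ (nlt.2 (by
          have := sq_le_sq' hy.1 hy.2
          simp only; nlinarith))) (equivRealProdCLM.symm.continuous.comp
        (continuous_const.prodMk continuous_id)).continuousAt).continuousWithinAt)
      (by rintro _ ⟨y, hy, rfl⟩; rwa [(hδ ε hε y (abs_le.2 hy)).1])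
    refine ⟨Real.exp T, fun z hz => ?_⟩
    have h0 := (Real.exp_pos T).trans_le hz
    obtain ⟨y, y1, y2⟩ := side ε hε z h0
    exact y2 ▸ n3 (hT _ ((Real.le_log_iff_exp_le (by linarith)).2 (by linarith)) _
      ⟨y, abs_le.1 y1, rfl⟩)
  have inj : ∀ z w, L w ≤ L z → B z = B w → z = w := fun z w k e => by
    have e' : d.Φ (L z - L w) (d.Q s (sq z)) = d.Q s (sq w) := by
      rw [sub_eq_neg_add, d.add]; exact (congrArg _ e).trans (d.back _ _)
    have := congrArg (ln 1 (-1) (L w)) (h.noret (s1 z) (s2 z) (s1 w) (s2 w) (sub_nonneg.2 k) e')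
    simp only [sq, ln_add, add_neg_cancel, ln_zero, ← add_assoc, add_sub_cancel] at this
    exact (th_inj δ0 this).symm
  refine ⟨P 1, P (-1), B, ⟨fun z => ?_, fun z w e => (le_total (L w) (L z)).elim (inj z w · e)
    fun k => (inj w z k e.symm).symm⟩, h, ?_, fun y => ⟨?_, fun k => ?_⟩, fun z hz => ?_,
    fun z t ht => ?_, fun z => ?_, by simpa using ends 1 (by norm_num),
    by simpa using ends (-1) (by norm_num), mx 1 (by norm_num), mx (-1) (by norm_num)⟩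
  · have k := (pm_ln 1 (-1) (-L z) _).comp (pm_th δ0 z)
    refine ((d.iso.mem (L z) _).comp (Pm.comp (g := d.Q s)
      (f := ln 1 (-1) (-L z) ∘ th δ) (d.pos s h.1 _ (s3 z)) k)).congr ?_
    filter_upwards [k.1.contMDiffAt.continuousAt.norm.eventually (gt_mem_nhds (s3 z))] with w hw
    exact spec w _ hw
  · have := axis 0 0 (by norm_num)
    rw [d.zero] at this
    simpa using this.trans (d.ctr s h.1)
  · rintro ⟨x, rfl⟩
    have e : sq x = ⟨(sq x).re, 0⟩ := Complex.ext rfl (by simp [sim])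
    simp only [B, d.al_flow]
    rw [e, h.al_axis (by linarith [s1 x])]
  · rcases Dy.Sd.stable (d := d.rev) (d.rev_sd ▸ h) k with rfl | ⟨σ, hσ, t, rfl⟩
    · exact ⟨_, (axis 0 0 (by norm_num)).trans ((d.zero _).trans (d.ctr _ h.1))⟩
    · exact ⟨_, (axis (-(σ / 2)) (-t) (by rcases hσ with rfl | rfl <;> norm_num)).trans
        (congrArg _ (congrArg _ (Complex.ext (by simp) (by simp))))⟩
  · have v0 : (th δ z).im ≠ 0 := mul_ne_zero (div_pos δ0 (mul_pos two_pos (rt_pos _))).ne'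
      (by simpa using hz)
    obtain ⟨ε, hε, hv⟩ : ∃ ε : ℝ, ε ^ 2 = 1 ∧ 0 < ε * (th δ z).im :=
      v0.lt_or_gt.elim (fun k => ⟨-1, by norm_num, by linarith⟩) fun k => ⟨1, by norm_num, by linarith⟩
    have e : ln 1 (-1) (- -Real.log (2 * (ε * (th δ z).im))) (th δ z) =
        ⟨2 * ε * ((th δ z).re * (th δ z).im), ε / 2⟩ := by
      have e0 : ε ≠ 0 := left_ne_zero_of_mul hv.ne'
      apply Complex.ext <;> simp only [ln, one_mul, neg_one_mul, neg_neg, Real.exp_neg,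
        Real.exp_log (mul_pos two_pos hv)]
      · ring
      · field_simp; linarith
    have b : |2 * ε * ((th δ z).re * (th δ z).im)| ≤ 2 * δ := by
      rw [abs_mul, abs_mul, show |ε| = 1 by rcases sq_eq_one_iff.1 hε with rfl | rfl <;> simp]
      simpa using th_prod δ0 z
    have := sq_le_sq' (abs_le.1 b).1 (abs_le.1 b).2
    rw [spec z _ (by rw [e, nlt]; simp only; nlinarith), e, d.al_flow]
    exact (hδ ε hε _ b).2
  · obtain ⟨z', k1, k2, k3⟩ := th_fwd (δ := δ) ht z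
    have e : ln 1 (-1) (-(t + L z)) (th δ z') = sq z := by
      rw [k3, ln_add]; congr 1; ring
    exact ⟨z', k1, k2, by rw [spec z' _ (e ▸ s3 z), e, d.add]⟩
  · rcases lt_trichotomy z.re 0 with k | k | k
    · obtain ⟨y, y1, y2⟩ := side (-1) (by norm_num) z (by linarith)
      exact Or.inr (Or.inr (by rw [y2, d.om_flow, (hδ _ (by norm_num) y y1).1]))
    · have e : sq z = ⟨0, (sq z).im⟩ := Complex.ext (by simp [sre, k]) rfl
      exact Or.inl (by simp only [B, d.om_flow]; rw [e, h.om_axis (by linarith [s2 z])])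
    · obtain ⟨y, y1, y2⟩ := side 1 (by norm_num) z (by linarith)
      exact Or.inr (Or.inl (by rw [y2, d.om_flow, (hδ _ (by norm_num) y y1).1]))

namespace Sp

theorem neg (h : Sp d s p q B) : Sp d s q p fun z => B (-z) where
  st := by simpa using h.st.affine (a := -1) (by simp) 0
  sd := h.sd
  ctr := by simpa using h.ctr
  core := by rw [core_neg]; exact h.core
  bw := fun z hz => h.bw _ (by simpa using hz)
  fwd := fun z t ht => by
    obtain ⟨z', k1, k2, k3⟩ := h.fwd (-z) t ht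
    exact ⟨-z', by simp [k1], by simpa using k2, by simpa using k3⟩
  fw := fun z => (h.fw (-z)).imp_right Or.symm
  top := fun O hO => by simpa using (h.bot O hO).imp fun R k z hz => k (-z) (by simpa using hz)
  bot := fun O hO => (h.top O hO).imp fun R k z hz => k (-z) hz
  mp := h.mq
  mq := h.mp

theorem ttop (h : Sp d s p q B) : Tendsto (fun x : ℝ => B x) atTop (𝓝 p) := fun O hO =>
  let ⟨R, k⟩ := h.top O hO
  mem_map.2 (eventually_atTop.2 ⟨R, fun x hx => k x (by simpa using hx)⟩)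

theorem tbot (h : Sp d s p q B) : Tendsto (fun x : ℝ => B x) atBot (𝓝 q) := fun O hO =>
  let ⟨R, k⟩ := h.bot O hO
  mem_map.2 (eventually_atBot.2 ⟨-R, fun x hx => k x (by simp; linarith)⟩)

theorem nmx (h : Sp d s p q B) (z : ℂ) : ¬ d.Mx (B z) := fun k => by
  have e := d.rev.om_crit k.1
  by_cases hz : z.im = 0
  · exact k.nsd ((e.symm.trans ((h.core _).1 (mem_core hz))) ▸ h.sd)
  · exact k.nmn (e ▸ h.bw z hz)

theorem flw (h : Sp d s p q B) {x x' : ℝ} (hx : 0 < x) (k : x ≤ x') :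
    ∃ t, 0 ≤ t ∧ d.Φ t (B x) = B x' := by
  have ht := Real.log_nonneg ((one_le_div hx).2 k)
  obtain ⟨z, k1, k2, k3⟩ := h.fwd x _ ht
  rw [Real.exp_log (div_pos (hx.trans_le k) hx), ofReal_re, div_mul_cancel₀ _ hx.ne'] at k1
  exact ⟨_, ht, k3.trans (congrArg B (Complex.ext k1 (by simpa using k2)))⟩

/-- the axis is an edge to a leaf -/
theorem lf (h : Sp d s p q B) (ne : p ≠ q) : Lf o B p q := by
  refine ⟨h.st, h.ttop, h.tbot, ?_⟩
  have hp := h.mp
  obtain ⟨ρ, hρ, k⟩ := Metric.mem_nhds_iff.1 (inter_mem (Metric.ball_mem_nhds (0 : ℂ) one_pos)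
    ((d.pos p hp.1 0 (by simp)).1.contMDiffAt.continuousAt.preimage_mem_nhds
      ((cpt_half (cont_axis h.st) h.tbot 1).isClosed.isOpen_compl.mem_nhds (by
        rw [d.ctr p hp.1]
        rintro (e | ⟨x, -, e⟩)
        · exact ne e
        · exact h.nmx x ((show B x = p from e) ▸ hp)))))
  have k1 : ∀ {u : ℂ}, ‖u‖ < ρ → ‖u‖ < 1 := fun hu =>
    mem_ball_zero_iff.1 (k (mem_ball_zero_iff.2 hu)).1
  have k2 : ∀ {u : ℂ} {x : ℝ}, ‖u‖ < ρ → B x = d.Q p u → 0 < x := fun hu e => by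
    by_contra j
    exact (k (mem_ball_zero_iff.2 hu)).2 (Or.inr ⟨_, (not_lt.1 j).trans zero_le_one, e⟩)
  obtain ⟨x₀, w, hw, e₀⟩ := (h.ttop.eventually (d.ball_nhds hp.1 hρ)).exists
  rw [mem_ball_zero_iff] at hw
  have w0 : w ≠ 0 := fun j => h.nmx x₀ (by rw [← e₀, j, d.ctr p hp.1]; exact hp)
  have cmp : ∀ {u v : ℂ} {x x' : ℝ}, ‖u‖ < ρ → ‖v‖ < ρ → B x = d.Q p u → B x' = d.Q p v → x ≤ x' →
      ∃ t : ℝ, v = Real.exp t * u := fun {u v x x'} hu hv e e' j => by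
    obtain ⟨t, ht, j'⟩ := h.flw (k2 hu e) j
    have j2 := (Dy.exp_norm ht u).trans_lt (k1 hu)
    rw [e, e', hp.lin (k1 hu) j2] at j'
    refine ⟨-t, (d.inj p hp.1 ?_ (mem_ball_zero_iff.2 (k1 hv)) j').symm⟩
    rwa [mem_ball_zero_iff, norm_mul, norm_real, Real.norm_of_nonneg (Real.exp_pos _).le]
  have ray : ∀ u : ℂ, ‖u‖ < ρ → (d.Q p u ∈ Prf6.core B ∪ {p} ↔ ∃ l : ℝ, 0 ≤ l ∧ u = l * w) := by
    refine fun u hu => ⟨?_, ?_⟩
    · rintro (⟨x, e⟩ | e)
      · rcases le_total x₀ x with j | j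
        · obtain ⟨t, ht⟩ := cmp hw hu e₀.symm e j
          exact ⟨_, (Real.exp_pos t).le, ht⟩
        · obtain ⟨t, ht⟩ := cmp hu hw e e₀.symm j
          refine ⟨_, (Real.exp_pos (-t)).le, ?_⟩
          rw [ht, ← mul_assoc, ← ofReal_mul, ← Real.exp_add]; simp
      · have := d.inj p hp.1 (mem_ball_zero_iff.2 (k1 hu))
          (Metric.mem_ball_self one_pos) (e.trans (d.ctr p hp.1).symm)
        exact ⟨0, le_rfl, by simpa using this⟩
    · rintro ⟨l, hl, rfl⟩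
      rcases hl.eq_or_lt with rfl | hl
      · exact Or.inr (by simpa using d.ctr p hp.1)
      · have j := hp.lin (k1 hw) (t := -Real.log l) (by
          have := k1 hu
          rwa [norm_mul, norm_real, Real.norm_of_nonneg hl.le, ← Real.exp_log hl,
            ← neg_neg (Real.log l)] at this)
        rw [neg_neg, Real.exp_log hl] at j
        exact Or.inl ((h.core _).2 (by rw [← j, d.al_flow, e₀]; exact (h.core _).1 ⟨x₀, rfl⟩))
  have nb : ∀ z : ℂ, ‖z‖ < 1 → ‖0 + -w * z‖ < ρ := fun z hz => by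
    rw [zero_add, norm_mul, norm_neg]
    nlinarith [norm_nonneg w]
  refine ⟨(fun z => d.Q p (0 + -w * z)) ∘ kap, st_kap (fun z hz => Pm.comp (g := d.Q p)
    (f := fun z => 0 + -w * z) (d.pos p hp.1 _ (k1 (nb z hz))) (pm_affine (neg_ne_zero.2 w0) 0 z))
    fun z hz z' hz' e => mul_left_cancel₀ (neg_ne_zero.2 w0) (add_left_cancel (d.inj p hp.1
      (mem_ball_zero_iff.2 (k1 (nb z (mem_ball_zero_iff.1 hz))))
      (mem_ball_zero_iff.2 (k1 (nb z' (mem_ball_zero_iff.1 hz')))) e)),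
    by simp [kap_zero, d.ctr p hp.1], fun z => (ray _ (nb _ (norm_kap z))).trans ⟨?_, fun j => ?_⟩⟩
  · rintro ⟨l, hl, e⟩
    have e' : kap z = -l := mul_left_cancel₀ w0 (by linear_combination -e)
    have e1 := congrArg re e'
    have e2 := congrArg im e'
    simp only [kap_re, kap_im, neg_re, neg_im, ofReal_re, ofReal_im] at e1 e2
    exact ⟨Real.arctan_eq_zero_iff.1 (by linarith), Real.arctan_strictMono.le_iff_le.1
      (by rw [Real.arctan_zero]; linarith)⟩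
  · have e1 : Real.arctan z.re ≤ 0 := by simpa using Real.arctan_strictMono.monotone j.2
    refine ⟨-(kap z).re, by rw [kap_re]; linarith, ?_⟩
    have : kap z = (kap z).re := Complex.ext (by simp) (by simp [kap_im, j.1])
    rw [this]; simp; ring

/-- thin strips are forward invariant -/
theorem stab (h : Sp d s p q B) {O : Set M} (hO : IsOpen O) (h1 : Prf6.core B ⊆ O) (hp : p ∈ O)
    (hq : q ∈ O) : ∃ N, IsOpen N ∧ d.Inv N ∧ N ⊆ O ∧ s ∈ N := by
  obtain ⟨R, hR⟩ := h.top O (hO.mem_nhds hp)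
  obtain ⟨R', hR'⟩ := h.bot O (hO.mem_nhds hq)
  obtain ⟨η, hη, k⟩ := (isCompact_Icc.image continuous_ofReal : IsCompact (ofReal '' Icc (-R') R)
    ).exists_thickening_subset_open (hO.preimage (cont_of_pm h.st.1))
    (by rintro _ ⟨x, -, rfl⟩; exact h1 ⟨x, rfl⟩)
  refine ⟨B '' {z | |z.im| < η}, h.st.isOpenEmbedding.isOpenMap _
    (isOpen_lt continuous_im.abs continuous_const), ?_, ?_, 0, by simpa using hη, h.ctr⟩
  · rintro t ht _ ⟨z, hz, rfl⟩
    obtain ⟨z', -, k2, k3⟩ := h.fwd z t ht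
    exact ⟨z', k2.trans_lt hz, k3.symm⟩
  · rintro _ ⟨z, hz, rfl⟩
    rcases le_total R z.re with j | j
    · exact hR z j
    rcases le_total R' (-z.re) with j' | j'
    · exact hR' z j'
    refine k (Metric.mem_thickening_iff.2 ⟨z.re, ⟨z.re, ⟨by linarith, j⟩, rfl⟩, ?_⟩)
    rw [dist_of_re_eq (by simp)]
    simpa [Real.dist_eq] using hz

end Sp

end Crest.Agent.X212.Cut44
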